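import Vale.Agent.P225.Yau.Variation

/-!
# P225: the subsolutions lie below the Gaussian barriers

First touching time: no function spaces, no existence theorem for the heat equation.
-/

noncomputable section

open Filter Topology

namespace Vale.Agent.P225.Yau

variable {n : ℕ} {X : Type*} [MetricSpace X] {e : X → Vec n → X} {o : X}

lemma deriv_nonpos_of_le_before {g : ℝ → ℝ} {g' t : ℝ} (h : HasDerivAt g g' t)
    (hle : ∀ᶠ r in 𝓝[<] t, g t ≤ g r) : g' ≤ 0 := by
  refine le_of_tendsto (h.tendsto_slope.mono_left (nhdsLT_le_nhdsNE t)) ?_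
  filter_upwards [hle, self_mem_nhdsWithin] with r hr hrt
  rw [slope_def_field]
  exact div_nonpos_of_nonneg_of_nonpos (sub_nonneg.2 hr) (sub_nonpos.2 (le_of_lt hrt))

lemma low_nonneg (m : ℝ) (u : X → ℝ) (t : ℝ) (x z : X) : 0 ≤ low n m u t x z :=
  mul_nonneg (sq_nonneg _) (Real.exp_pos _).le

lemma low_le {m t : ℝ} (hm : 0 ≤ m) (ht : 0 < t) (u : X → ℝ) (x z : X) :
    low n m u t x z ≤ u x ^ 2 * Real.exp (-(dist x z ^ 2 / (4 * t))) := by
  refine mul_le_mul_of_nonneg_left (Real.exp_le_exp.2 ?_) (sq_nonneg _)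
  have h1 := cost_nonneg (n := n) hm ht.le
  have h2 : dist x z ^ 2 / (4 * t) ≤ dist x z ^ 2 / (2 * prof m t) :=
    div_le_div_of_nonneg_left (sq_nonneg _) (mul_pos two_pos (prof_pos hm ht))
      (by linarith [prof_le hm ht.le])
  linarith

lemma differentiableAt_low {m t : ℝ} (hm : 0 ≤ m) (ht : 0 < t) (u : X → ℝ) (x z : X) :
    DifferentiableAt ℝ (fun r => low n m u r x z) t := by
  simp only [low, div_eq_mul_inv]
  exact (((((hasDerivAt_prof hm ht.le).differentiableAt.const_mul 2).inv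
    (mul_pos two_pos (prof_pos hm ht)).ne').const_mul _).neg.sub
      (hasDerivAt_cost hm ht).differentiableAt).exp.const_mul _

lemma le_bar {l t r : ℝ} (hl : 0 ≤ l) (ht : 0 ≤ t) (hlt : 4 * l * t < 1) (hr : 0 ≤ r) :
    Real.exp (l * r) ≤ bar n l t r := by
  refine Real.exp_le_exp.2 ?_
  have h1 : Real.log (1 - 4 * l * t) ≤ 0 :=
    Real.log_nonpos (by linarith) (by nlinarith [mul_nonneg hl ht])
  have h2 : l ≤ l / (1 - 4 * l * t) :=
    le_div_self hl (by linarith) (by nlinarith [mul_nonneg hl ht])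
  nlinarith [mul_le_mul_of_nonneg_right h2 hr, (Nat.cast_nonneg n : (0 : ℝ) ≤ n)]

lemma bar_zero (l r : ℝ) : bar n l 0 r = Real.exp (l * r) := by simp [bar]

lemma tendsto_bar {α : Type*} {F : Filter α} {l : ℝ} {τ ρ : α → ℝ} {t r : ℝ} (hl : 4 * l * t < 1)
    (hτ : Tendsto τ F (𝓝 t)) (hρ : Tendsto ρ F (𝓝 r)) :
    Tendsto (fun a => bar n l (τ a) (ρ a)) F (𝓝 (bar n l t r)) := by
  have h0 : 1 - 4 * l * t ≠ 0 := by linarith
  have hd : Tendsto (fun a => 1 - 4 * l * τ a) F (𝓝 (1 - 4 * l * t)) :=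
    tendsto_const_nhds.sub (hτ.const_mul _)
  exact (Real.continuous_exp.tendsto _).comp
    (((tendsto_const_nhds.div hd h0).mul hρ).sub ((hd.log h0).const_mul _))

lemma tendsto_low {α : Type*} {F : Filter α} {m : ℝ} (hm : 0 ≤ m) {u : X → ℝ} (hu : Continuous u)
    {τ : α → ℝ} {ξ ζ : α → X} {t : ℝ} {x z : X} (ht : 0 < t) (hτ : Tendsto τ F (𝓝 t))
    (hξ : Tendsto ξ F (𝓝 x)) (hζ : Tendsto ζ F (𝓝 z)) :
    Tendsto (fun a => low n m u (τ a) (ξ a) (ζ a)) F (𝓝 (low n m u t x z)) :=
  ((((hu.tendsto x).comp hξ).pow 2).mul ((Real.continuous_exp.tendsto _).comp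
    (((((hξ.dist hζ).pow 2).div (((hasDerivAt_prof hm ht.le).continuousAt.tendsto.comp hτ).const_mul 2)
      (mul_pos two_pos (prof_pos hm ht)).ne').neg).sub
        ((hasDerivAt_cost hm ht).continuousAt.tendsto.comp hτ))))

variable {ι κ : Type*} [Fintype ι] [Fintype κ] [ProperSpace X]

/-- A family of subsolutions below the barriers at time zero stays below them. -/
theorem comparison (hR : NonnegRicci n X e) {k : ℝ} (hk : 0 ≤ k) {m t₀ : ℝ} (hm : 0 ≤ m)
    (ht₀ : 0 < t₀) (u : ι → X → ℝ) (hu : ∀ i, IsHarmonic e (u i))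
    (hgr : ∀ i, GrowthLE o k (u i)) (c l : κ → ℝ) (hc : ∀ j, 0 ≤ c j) (hl0 : ∀ j, 0 ≤ l j)
    (hl : ∀ j, 4 * l j * t₀ < 1)
    (hinit : ∀ z, ∑ i, u i z ^ 2 ≤ ∑ j, c j * Real.exp (l j * dist o z ^ 2)) (x : ι → X) (z : X) :
    ∑ i, low n m (u i) t₀ (x i) z ≤ ∑ j, c j * bar n (l j) t₀ (dist o z ^ 2) := by
  classical
  set ls := 1 / (8 * t₀) with hls
  have hls0 : 0 < ls := by positivity
  have hlst : 4 * ls * t₀ < 1 := by rw [hls]; field_simp; norm_num
  have hlt : ∀ {l' t : ℝ}, 0 ≤ l' → 4 * l' * t₀ < 1 → t ≤ t₀ → 4 * l' * t < 1 :=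
    fun hl' h ht => lt_of_le_of_lt (mul_le_mul_of_nonneg_left ht (by linarith)) h
  suffices key : ∀ δ, 0 < δ → ∀ t, 0 < t → t ≤ t₀ → ∀ z (x : ι → X), ∑ i, low n m (u i) t (x i) z <
      ∑ j, c j * bar n (l j) t (dist o z ^ 2) + δ * (Real.exp t * bar n ls t (dist o z ^ 2)) by
    refine le_of_forall_pos_le_add fun ε hε => ?_
    set N := Real.exp t₀ * bar n ls t₀ (dist o z ^ 2)
    have hN : 0 < N := mul_pos (Real.exp_pos _) (Real.exp_pos _)
    have := key (ε / N) (div_pos hε hN) t₀ ht₀ le_rfl z x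
    rw [show ε / N * N = ε by field_simp] at this
    exact this.le
  intro δ hδ
  set B : ℝ → X → ℝ := fun t z =>
    ∑ j, c j * bar n (l j) t (dist o z ^ 2) + δ * (Real.exp t * bar n ls t (dist o z ^ 2)) with hB
  set bad : Set ℝ := {t | 0 < t ∧ t ≤ t₀ ∧ ∃ z, ∃ x : ι → X, B t z ≤ ∑ i, low n m (u i) t (x i) z} with hbad
  suffices hempty : bad = ∅ by
    intro t ht ht' z x
    exact not_le.1 fun h => Set.eq_empty_iff_forall_notMem.1 hempty t ⟨ht, ht', z, x, h⟩
  by_contra hne
  have hbne : bad.Nonempty := Set.nonempty_iff_ne_empty.2 hne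
  have hbb : BddBelow bad := ⟨0, fun t ht => ht.1.le⟩
  obtain ⟨τ, -, hτlim, hτmem⟩ := exists_seq_tendsto_sInf hbne hbb
  choose hτ0 hτt ζ ξ hbadn using hτmem
  set ts := sInf bad
  -- bounds
  choose Cu hCu using hgr
  have hu2 : ∀ i x z, u i x ^ 2 ≤
      Cu i ^ 2 * Real.exp (2 * k * dist o z) * Real.exp (2 * k * dist x z) := by
    intro i x z
    have h1 : (1 + dist o x) ^ k ≤ Real.exp (k * dist o z + k * dist x z) := by
      calc (1 + dist o x) ^ k ≤ Real.exp (dist o x) ^ k :=
            Real.rpow_le_rpow (by positivity) (by linarith [Real.add_one_le_exp (dist o x)]) hk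
        _ ≤ Real.exp (k * dist o z + k * dist x z) := by
            rw [← Real.exp_mul]
            refine Real.exp_le_exp.2 ?_
            have h := mul_le_mul_of_nonneg_left (dist_triangle o z x) hk
            rw [dist_comm z x, mul_add] at h
            linarith
    have h2 : 0 ≤ Cu i := nonneg_of_mul_nonneg_left ((abs_nonneg _).trans (hCu i o)) (by positivity)
    rw [← sq_abs, mul_assoc, ← Real.exp_add]
    refine (pow_le_pow_left₀ (abs_nonneg _) ((hCu i x).trans (mul_le_mul_of_nonneg_left h1 h2)) 2).trans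
      (le_of_eq ?_)
    rw [mul_pow, ← Real.exp_nat_mul]
    push_cast
    ring_nf
  have hdecay : ∀ i x z t, 0 < t → t ≤ t₀ → low n m (u i) t x z ≤
      Cu i ^ 2 * Real.exp (2 * k * dist o z) *
        Real.exp (2 * k * dist x z - dist x z ^ 2 / (4 * t₀)) := by
    intro i x z t ht ht'
    rw [sub_eq_add_neg, Real.exp_add, ← mul_assoc]
    refine (low_le hm ht (u i) x z).trans (mul_le_mul (hu2 i x z) (Real.exp_le_exp.2 ?_)
      (Real.exp_pos _).le (by positivity))
    exact neg_le_neg (div_le_div_of_nonneg_left (sq_nonneg _) (by positivity) (by linarith))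
  have hquad : ∀ r, 2 * k * r - r ^ 2 / (4 * t₀) ≤ 4 * t₀ * k ^ 2 := fun r => by
    rw [sub_le_iff_le_add, ← sub_le_iff_le_add', le_div_iff₀ (by positivity)]
    nlinarith [sq_nonneg (r - 4 * t₀ * k)]
  -- the centres stay bounded
  obtain ⟨R, hR'⟩ : ∃ R, ∀ j, ζ j ∈ Metric.closedBall o R := by
    set M := ∑ i, Cu i ^ 2 * Real.exp (4 * t₀ * k ^ 2) + 1
    refine ⟨max 1 ((2 * k + |Real.log (M / δ)|) / ls), fun j => ?_⟩
    set r := dist o (ζ j)
    have hM : 0 < M := add_pos_of_nonneg_of_pos (Finset.sum_nonneg fun i _ => by positivity) one_pos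
    have h1 : δ * Real.exp (ls * r ^ 2) ≤ M * Real.exp (2 * k * r) := by
      have h3 : δ * Real.exp (ls * r ^ 2) ≤ B (τ j) (ζ j) := by
        refine le_trans ?_ (le_add_of_nonneg_left
          (Finset.sum_nonneg fun j _ => mul_nonneg (hc j) (Real.exp_pos _).le))
        refine mul_le_mul_of_nonneg_left ((le_bar hls0.le (hτ0 j).le (hlt hls0.le hlst (hτt j))
          (sq_nonneg _)).trans (le_mul_of_one_le_left (Real.exp_pos _).le
            (Real.one_le_exp (hτ0 j).le))) hδ.le
      refine h3.trans ((hbadn j).trans ((Finset.sum_le_sum fun i _ =>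
        (hdecay i (ξ j i) (ζ j) (τ j) (hτ0 j) (hτt j)).trans
          (mul_le_mul_of_nonneg_left (Real.exp_le_exp.2 (hquad _)) (by positivity))).trans ?_))
      simp only [M, add_mul, Finset.sum_mul, one_mul]
      refine le_add_of_le_of_nonneg (le_of_eq (Finset.sum_congr rfl fun i _ => ?_)) (Real.exp_pos _).le
      ring
    have h2 : ls * r ^ 2 ≤ Real.log (M / δ) + 2 * k * r := by
      refine Real.exp_le_exp.1 ?_
      rw [Real.exp_add, Real.exp_log (div_pos hM hδ)]
      refine le_of_mul_le_mul_left (h1.trans_eq ?_) hδ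
      rw [← mul_assoc, mul_div_cancel₀ _ hδ.ne']
    rw [Metric.mem_closedBall, dist_comm]
    rcases le_total r 1 with h | h
    · exact h.trans (le_max_left _ _)
    · refine le_trans ?_ (le_max_right _ _)
      rw [le_div_iff₀ hls0]
      nlinarith [le_abs_self (Real.log (M / δ)), abs_nonneg (Real.log (M / δ))]
  set U : Ultrafilter ℕ := Ultrafilter.of atTop
  have hτU : Tendsto τ U (𝓝 ts) := hτlim.mono_left (Ultrafilter.of_le _)
  obtain ⟨zs, -, hzU⟩ := (isCompact_closedBall o R).ultrafilter_le_nhds (U.map ζ)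
    (le_principal_iff.2 (Eventually.of_forall hR' : ∀ᶠ j in (U : Filter ℕ), _))
  have hζU : Tendsto ζ U (𝓝 zs) := hzU
  -- each point converges or its term vanishes
  have hpts : ∀ i, (∃ a, Tendsto (fun j => ξ j i) U (𝓝 a)) ∨
      Tendsto (fun j => low n m (u i) (τ j) (ξ j i) (ζ j)) U (𝓝 0) := by
    intro i
    by_cases h : ∃ S, ∀ᶠ j in (U : Filter ℕ), ξ j i ∈ Metric.closedBall o S
    · obtain ⟨S, hS⟩ := h
      obtain ⟨a, -, ha⟩ := (isCompact_closedBall o S).ultrafilter_le_nhds (U.map fun j => ξ j i)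
        (le_principal_iff.2 hS)
      exact Or.inl ⟨a, ha⟩
    · refine Or.inr ?_
      push Not at h
      have hd : Tendsto (fun j => dist (ξ j i) (ζ j)) U atTop := by
        refine tendsto_atTop.2 fun S => ?_
        refine (h (|S| + R)).mono fun j hj => ?_
        rw [Metric.mem_closedBall, not_le] at hj
        have h1 := dist_triangle (ξ j i) (ζ j) o
        have h2 := Metric.mem_closedBall.1 (hR' j)
        linarith [le_abs_self S]
      refine squeeze_zero (fun j => low_nonneg m (u i) _ _ _) (fun j =>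
        hdecay i (ξ j i) (ζ j) (τ j) (hτ0 j) (hτt j)) ?_
      have hq : Tendsto (fun r : ℝ => 2 * k * r - r ^ 2 / (4 * t₀)) atTop atBot := by
        have : Tendsto (fun r : ℝ => r * (2 * k - r / (4 * t₀))) atTop atBot :=
          tendsto_id.atTop_mul_atBot₀ (tendsto_atBot_add_const_left _ _
            (tendsto_neg_atTop_atBot.comp (tendsto_id.atTop_div_const (by positivity))))
        exact this.congr fun r => by ring
      have hdo : Tendsto (fun j => Cu i ^ 2 * Real.exp (2 * k * dist o (ζ j))) U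
          (𝓝 (Cu i ^ 2 * Real.exp (2 * k * dist o zs))) :=
        (((Real.continuous_exp.tendsto _).comp ((tendsto_const_nhds.dist hζU).const_mul _))).const_mul _
      simpa using hdo.mul (Real.tendsto_exp_atBot.comp (hq.comp hd))
  have hts0 : 0 ≤ ts := le_csInf hbne fun t ht => ht.1.le
  have hts1 : ts ≤ t₀ := le_of_tendsto hτU (Eventually.of_forall hτt)
  have hr : Tendsto (fun j => dist o (ζ j) ^ 2) U (𝓝 (dist o zs ^ 2)) :=
    ((tendsto_const_nhds.dist hζU).pow 2)
  have hBlim : Tendsto (fun j => B (τ j) (ζ j)) U (𝓝 (B ts zs)) :=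
    (tendsto_finsetSum _ fun j _ => (tendsto_bar (hlt (hl0 j) (hl j) hts1) hτU hr).const_mul _).add
      ((((Real.continuous_exp.tendsto _).comp hτU).mul
        (tendsto_bar (hlt hls0.le hlst hts1) hτU hr)).const_mul _)
  rcases eq_or_lt_of_le hts0 with hts | htspos
  · -- no touching at time zero
    have hg : ∀ i, ∃ g : ℕ → ℝ, ∃ w, w ≤ u i zs ^ 2 ∧ Tendsto g U (𝓝 w) ∧
        ∀ j, low n m (u i) (τ j) (ξ j i) (ζ j) ≤ g j := by
      intro i
      rcases hpts i with ⟨a, ha⟩ | h0
      · have hsq : Tendsto (fun j => u i (ξ j i) ^ 2) U (𝓝 (u i a ^ 2)) :=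
          (((hu i).1.tendsto a).comp ha).pow 2
        rcases eq_or_ne a zs with rfl | hne'
        · refine ⟨_, _, le_rfl, hsq, fun j => (low_le hm (hτ0 j) _ _ _).trans
            (mul_le_of_le_one_right (sq_nonneg _) (Real.exp_le_one_iff.2 ?_))⟩
          exact neg_nonpos.2 (div_nonneg (sq_nonneg _) (by linarith [hτ0 j]))
        · refine ⟨fun j => u i (ξ j i) ^ 2 * Real.exp (-(dist (ξ j i) (ζ j) ^ 2 / (4 * τ j))), 0,
            sq_nonneg _, ?_, fun j => low_le hm (hτ0 j) _ _ _⟩
          have h4 : Tendsto (fun j => 4 * τ j) U (𝓝[>] 0) :=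
            tendsto_nhdsWithin_iff.2 ⟨by simpa [← hts] using hτU.const_mul 4,
              Eventually.of_forall fun j => by simp only [Set.mem_Ioi]; linarith [hτ0 j]⟩
          have h5 : Tendsto (fun j => dist (ξ j i) (ζ j) ^ 2 / (4 * τ j)) U atTop := by
            have hp : 0 < dist a zs ^ 2 := pow_pos (dist_pos.2 hne') 2
            simp only [div_eq_mul_inv]
            exact Tendsto.pos_mul_atTop hp ((ha.dist hζU).pow 2) (tendsto_inv_nhdsGT_zero.comp h4)
          simpa using hsq.mul (Real.tendsto_exp_atBot.comp (tendsto_neg_atTop_atBot.comp h5))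
      · exact ⟨_, 0, sq_nonneg _, h0, fun j => le_rfl⟩
    choose g w hw hgw hlg using hg
    have h1 : B ts zs ≤ ∑ i, w i := le_of_tendsto_of_tendsto hBlim
      (tendsto_finsetSum _ fun i _ => hgw i)
      (Eventually.of_forall fun j => (hbadn j).trans (Finset.sum_le_sum fun i _ => hlg i j))
    rw [← hts] at h1
    simp only [hB, bar_zero, Real.exp_zero, one_mul] at h1
    have h2 := (Finset.sum_le_sum fun i _ => hw i).trans (hinit zs)
    nlinarith [mul_pos hδ (Real.exp_pos (ls * dist o zs ^ 2))]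
  -- a touching point
  have htouch : ∃ a : ι → X, B ts zs ≤ ∑ i, low n m (u i) ts (a i) zs := by
    have hg : ∀ i, ∃ a w, w ≤ low n m (u i) ts a zs ∧
        Tendsto (fun j => low n m (u i) (τ j) (ξ j i) (ζ j)) U (𝓝 w) := by
      intro i
      rcases hpts i with ⟨a, ha⟩ | h0
      · exact ⟨a, _, le_rfl, tendsto_low hm (hu i).1 htspos hτU ha hζU⟩
      · exact ⟨o, 0, low_nonneg m (u i) ts o zs, h0⟩
    choose a w hw hgw using hg
    exact ⟨a, (le_of_tendsto_of_tendsto hBlim (tendsto_finsetSum _ fun i _ => hgw i)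
      (Eventually.of_forall hbadn)).trans (Finset.sum_le_sum fun i _ => hw i)⟩
  obtain ⟨a, ha⟩ := htouch
  have hbefore : ∀ r, 0 < r → r < ts → ∀ z, ∀ x : ι → X, ∑ i, low n m (u i) r (x i) z < B r z :=
    fun r hr0 hr1 z x => not_le.1 fun h =>
      absurd (csInf_le hbb ⟨hr0, hr1.le.trans hts1, z, x, h⟩) (not_le.2 hr1)
  have hat : ∀ z (x : ι → X), ∑ i, low n m (u i) ts (x i) z ≤ B ts z := by
    intro z x
    have hid : Tendsto (fun r : ℝ => r) (𝓝[<] ts) (𝓝 ts) := nhdsWithin_le_nhds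
    refine le_of_tendsto_of_tendsto (tendsto_finsetSum _ fun i _ => tendsto_low hm (hu i).1 htspos
      hid (tendsto_const_nhds (x := x i)) (tendsto_const_nhds (x := z)))
      ((tendsto_finsetSum _ fun j _ =>
        (tendsto_bar (hlt (hl0 j) (hl j) hts1) hid tendsto_const_nhds).const_mul _).add
        ((((Real.continuous_exp.tendsto _).comp hid).mul
          (tendsto_bar (hlt hls0.le hlst hts1) hid tendsto_const_nhds)).const_mul _)) ?_
    filter_upwards [Ioo_mem_nhdsLT htspos] with r hr'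
    exact (hbefore r hr'.1 hr'.2 z x).le
  have heq : ∑ i, low n m (u i) ts (a i) zs = B ts zs := le_antisymm (hat zs a) ha
  have hmax : ∀ i x', low n m (u i) ts x' zs ≤ low n m (u i) ts (a i) zs := by
    intro i x'
    have h := hat zs (Function.update a i x')
    rw [← heq, ← Finset.add_sum_erase _ _ (Finset.mem_univ i),
      ← Finset.add_sum_erase _ (fun i => low n m (u i) ts (a i) zs) (Finset.mem_univ i),
      Function.update_self, Finset.sum_congr rfl fun i' hi' =>
        congrArg (fun y => low n m (u i') ts y zs)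
          (Function.update_of_ne (Finset.ne_of_mem_erase hi') x' a)] at h
    linarith
  choose f hft hf using fun i => hR.low_variation (hu i) hm htspos (a i) zs (hmax i)
  obtain ⟨J, hJ⟩ := hR.bar_variation (o := o) zs (t := ts)
  have hJs := hJ ls hls0.le (hlt hls0.le hlst hts1)
  have hJj := fun j => hJ (l j) (hl0 j) (hlt (hl0 j) (hl j) hts1)
  set F : Fin n → ℝ → ℝ := fun q s => ∑ j, c j * bar n (l j) ts (J q s)
    + δ * (Real.exp ts * bar n ls ts (J q s)) - ∑ i, f i q s with hF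
  have hF0 : ∀ q, 0 ≤ deriv (deriv (F q)) 0 := by
    intro q
    have hc2 : ContDiffAt ℝ 2 (F q) 0 :=
      ((ContDiffAt.sum fun j _ => contDiffAt_const.mul ((hJj j).1 q).1).add
        (contDiffAt_const.mul (contDiffAt_const.mul (hJs.1 q).1))).sub
        (ContDiffAt.sum fun i _ => (hf i q).1)
    refine deriv2_nonneg_of_isLocalMin hc2 ?_
    have hz : F q 0 = 0 := by
      simp only [hF, ((hJj _).1 q).2.1, (hJs.1 q).2.1, (hf _ q).2.1]
      rw [heq]
      exact sub_self _
    filter_upwards [eventually_all.2 fun i => (hf i q).2.2, (hJs.1 q).2.2,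
      eventually_all.2 fun j => ((hJj j).1 q).2.2] with s h1 h2 h3
    rw [hz]
    choose x' hx' using h1
    have h4 := hat (e zs (s • bas q)) x'
    have h5 : B ts (e zs (s • bas q)) ≤
        ∑ j, c j * bar n (l j) ts (J q s) + δ * (Real.exp ts * bar n ls ts (J q s)) :=
      add_le_add (Finset.sum_le_sum fun j _ => mul_le_mul_of_nonneg_left (h3 j) (hc j))
        (mul_le_mul_of_nonneg_left (mul_le_mul_of_nonneg_left h2 (Real.exp_pos _).le) hδ.le)
    have h6 := Finset.sum_le_sum fun i (_ : i ∈ Finset.univ) => hx' i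
    simp only [hF]
    linarith
  -- derivatives of the sums
  have hd2 : ∀ {g : ℝ → ℝ}, ContDiffAt ℝ 2 g 0 → ∀ᶠ s in 𝓝 (0 : ℝ), DifferentiableAt ℝ g s :=
    fun hg => (hg.eventually (by norm_num)).mono fun s hs => hs.differentiableAt two_ne_zero
  have hF2 : ∀ q, deriv (deriv (F q)) 0 = ∑ j, c j * deriv (deriv fun s => bar n (l j) ts (J q s)) 0
      + δ * (Real.exp ts * deriv (deriv fun s => bar n ls ts (J q s)) 0)
      - ∑ i, deriv (deriv (f i q)) 0 := by
    intro q
    have h1 : deriv (F q) =ᶠ[𝓝 0] fun s => ∑ j, c j * deriv (fun s => bar n (l j) ts (J q s)) s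
        + δ * (Real.exp ts * deriv (fun s => bar n ls ts (J q s)) s) - ∑ i, deriv (f i q) s := by
      filter_upwards [eventually_all.2 fun j => hd2 ((hJj j).1 q).1, hd2 (hJs.1 q).1,
        eventually_all.2 fun i => hd2 (hf i q).1] with s a1 a2 a3
      exact (((HasDerivAt.fun_sum fun j _ => (a1 j).hasDerivAt.const_mul (c j)).fun_add
        ((a2.hasDerivAt.const_mul _).const_mul δ)).fun_sub
        (HasDerivAt.fun_sum fun i _ => (a3 i).hasDerivAt)).deriv
    rw [h1.deriv_eq]
    exact (((HasDerivAt.fun_sum fun j _ =>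
      (differentiableAt_deriv ((hJj j).1 q).1).hasDerivAt.const_mul (c j)).fun_add
        (((differentiableAt_deriv (hJs.1 q).1).hasDerivAt.const_mul _).const_mul δ)).fun_sub
        (HasDerivAt.fun_sum fun i _ => (differentiableAt_deriv (hf i q).1).hasDerivAt)).deriv
  set G : ℝ → ℝ := fun r => B r zs - ∑ i, low n m (u i) r (a i) zs with hG
  have hG' : HasDerivAt G (∑ j, c j * deriv (fun r => bar n (l j) r (dist o zs ^ 2)) ts
      + δ * (Real.exp ts * bar n ls ts (dist o zs ^ 2) +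
        Real.exp ts * deriv (fun r => bar n ls r (dist o zs ^ 2)) ts)
      - ∑ i, deriv (fun r => low n m (u i) r (a i) zs) ts) ts :=
    ((HasDerivAt.fun_sum fun j _ =>
      (hasDerivAt_bar (hlt (hl0 j) (hl j) hts1)).differentiableAt.hasDerivAt.const_mul (c j)).fun_add
      (((Real.hasDerivAt_exp ts).fun_mul
        (hasDerivAt_bar (hlt hls0.le hlst hts1)).differentiableAt.hasDerivAt).const_mul δ)).fun_sub
      (HasDerivAt.fun_sum fun i _ => (differentiableAt_low hm htspos (u i) (a i) zs).hasDerivAt)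
  have hneg := deriv_nonpos_of_le_before hG' (by
    filter_upwards [Ioo_mem_nhdsLT htspos] with r hr'
    simp only [hG]
    linarith [(hbefore r hr'.1 hr'.2 zs a)])
  have hsum : 0 ≤ ∑ q, deriv (deriv (F q)) 0 := Finset.sum_nonneg fun q _ => hF0 q
  simp only [hF2, Finset.sum_sub_distrib, Finset.sum_add_distrib] at hsum
  rw [Finset.sum_comm, ← Finset.mul_sum, ← Finset.mul_sum,
    Finset.sum_comm (f := fun q i => deriv (deriv (f i q)) 0)] at hsum
  have h1 : ∑ j, ∑ q, c j * deriv (deriv fun s => bar n (l j) ts (J q s)) 0 ≤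
      ∑ j, c j * deriv (fun r => bar n (l j) r (dist o zs ^ 2)) ts :=
    Finset.sum_le_sum fun j _ => by
      rw [← Finset.mul_sum]; exact mul_le_mul_of_nonneg_left (hJj j).2 (hc j)
  have h2 := mul_le_mul_of_nonneg_left
    (mul_le_mul_of_nonneg_left hJs.2 (Real.exp_pos ts).le) hδ.le
  have h3 : ∑ i, deriv (fun r => low n m (u i) r (a i) zs) ts ≤
      ∑ i, ∑ q, deriv (deriv (f i q)) 0 := Finset.sum_le_sum fun i _ => hft i
  have h4 : 0 < δ * (Real.exp ts * bar n ls ts (dist o zs ^ 2)) :=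
    mul_pos hδ (mul_pos (Real.exp_pos _) (Real.exp_pos _))
  rw [mul_add] at hneg
  linarith

end Vale.Agent.P225.Yau
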