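import Vale.Agent.P225.Yau.Functional
import Vale.Agent.P225.H1.Ineq
import Vale.Agent.P225.H1.Seq

/-!
# P225: counting harmonic functions of polynomial growth

The quadratic forms given by the functionals grow polynomially, while the trace of one against a
later one is at most `(1 - y) ^ (-n)`.
-/

noncomputable section

open Filter Topology Matrix

namespace Vale.Agent.P225.Yau

variable {n h : ℕ} {X : Type*} [MetricSpace X] {e : X → Vec n → X} {o : X}

omit [MetricSpace X] in
lemma comb_sq_eq (u : Fin h → X → ℝ) (c : Fin h → ℝ) :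
    (⟨_, comb_sq_mem u c⟩ : prods u) =
      ∑ i, ∑ j, (c i * c j) • (⟨_, mul_mem_prods u i j⟩ : prods u) := by
  apply Subtype.ext
  simp only [AddSubmonoidClass.coe_finsetSum, SetLike.val_smul]
  funext x
  simp only [comb, sq, Finset.sum_mul_sum, Finset.sum_apply, Pi.smul_apply, Pi.mul_apply,
    smul_eq_mul]
  exact Finset.sum_congr rfl fun i _ => Finset.sum_congr rfl fun j _ => by ring

omit [MetricSpace X] in
lemma quad_eq (u : Fin h → X → ℝ) (L : prods u →ₗ[ℝ] ℝ) (c : Fin h → ℝ) :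
    c ⬝ᵥ (Matrix.of (fun i j => L ⟨_, mul_mem_prods u i j⟩) *ᵥ c) = L ⟨_, comb_sq_mem u c⟩ := by
  rw [comb_sq_eq]
  simp only [map_sum, map_smul, smul_eq_mul, dotProduct, mulVec, Matrix.of_apply, Finset.mul_sum]
  exact Finset.sum_congr rfl fun i _ => Finset.sum_congr rfl fun j _ => by ring

lemma poly_le_exp {k r t : ℝ} (hk : 0 ≤ k) (hr : 0 ≤ r) (ht : 1 ≤ t) :
    ((1 + r) ^ k) ^ 2 ≤
      (2 : ℝ) ^ k * Real.exp (8 * k ^ 2) * t ^ k * Real.exp (1 / (8 * t) * r ^ 2) := by
  set s := r / Real.sqrt t with hs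
  have ht0 : 0 < t := by linarith
  have hst : 0 < Real.sqrt t := Real.sqrt_pos.2 ht0
  have hs0 : 0 ≤ s := div_nonneg hr hst.le
  have h1 : (1 + r) ^ 2 ≤ 2 * t * Real.exp (2 * s) := by
    have h2 : (1 + r) ^ 2 ≤ 2 * t * (1 + s) ^ 2 := by
      have hr' : r = s * Real.sqrt t := by rw [hs, div_mul_cancel₀ _ hst.ne']
      have h3 : 1 ≤ Real.sqrt t := by rw [← Real.sqrt_one]; exact Real.sqrt_le_sqrt ht
      have h4 : 1 + r ≤ Real.sqrt t * (1 + s) := by rw [hr', mul_add, mul_one, mul_comm s]; linarith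
      have h5 := pow_le_pow_left₀ (by linarith) h4 2
      rw [mul_pow, Real.sq_sqrt ht0.le] at h5
      nlinarith [mul_nonneg ht0.le (sq_nonneg (1 + s))]
    refine h2.trans (mul_le_mul_of_nonneg_left ?_ (by positivity))
    rw [show 2 * s = ((2 : ℕ) : ℝ) * s by norm_num, Real.exp_nat_mul]
    exact pow_le_pow_left₀ (by linarith) (by linarith [Real.add_one_le_exp s]) 2
  have h6 : ((1 + r) ^ k) ^ 2 = ((1 + r) ^ 2) ^ k := by
    rw [← Real.rpow_natCast ((1 + r) ^ k) 2, ← Real.rpow_mul (by linarith),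
      ← Real.rpow_natCast (1 + r) 2, ← Real.rpow_mul (by linarith), mul_comm]
  rw [h6]
  refine (Real.rpow_le_rpow (sq_nonneg _) h1 hk).trans ?_
  rw [Real.mul_rpow (by positivity) (Real.exp_pos _).le, Real.mul_rpow two_pos.le ht0.le,
    ← Real.exp_mul, show 1 / (8 * t) * r ^ 2 = s ^ 2 / 8 by
      rw [hs, div_pow, Real.sq_sqrt ht0.le]; field_simp]
  have h7 : 2 * s * k ≤ 8 * k ^ 2 + s ^ 2 / 8 := by nlinarith [sq_nonneg (s - 8 * k)]
  calc (2 : ℝ) ^ k * t ^ k * Real.exp (2 * s * k)
      ≤ (2 : ℝ) ^ k * t ^ k * Real.exp (8 * k ^ 2 + s ^ 2 / 8) := by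
        gcongr
    _ = _ := by rw [Real.exp_add]; ring

/-- **The counting bound.** -/
theorem card_mul_le [ProperSpace X] (hR : NonnegRicci n X e) (o : X) {d : ℝ} (hd : 0 ≤ d)
    (u : Fin h → X → ℝ) (hli : LinearIndependent ℝ u) (hu : ∀ i, IsHarmonic e (u i))
    (hg : ∀ i, GrowthLE o d (u i)) {y : ℝ} (hy : 0 < y) (hy1 : y < 1) :
    (h : ℝ) * y ^ d * (1 - y) ^ n ≤ 1 := by
  classical
  rcases Nat.eq_zero_or_pos h with h0 | h0
  · simp [h0]
  have : Nonempty (Fin h) := ⟨⟨0, h0⟩⟩
  have hy1' : 0 < 1 - y := by linarith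
  have hm : ∀ t : ℝ, 0 < t → 0 ≤ y / ((1 - y) * t) := fun t ht => by positivity
  choose L hL1 hL2 using fun t : {t : ℝ // 0 < t} =>
    exists_functional hR hd u hu hg (hm t.1 t.2) t.2
  set A : ℝ → Matrix (Fin h) (Fin h) ℝ := fun t =>
    if ht : 0 < t then Matrix.of fun i j => L ⟨t, ht⟩ ⟨_, mul_mem_prods u i j⟩ else 1 with hA
  have hAt : ∀ t (ht : 0 < t), A t = Matrix.of fun i j => L ⟨t, ht⟩ ⟨_, mul_mem_prods u i j⟩ :=
    fun t ht => dif_pos ht
  have hsym : ∀ t (ht : 0 < t) i j, A t i j = A t j i := fun t ht i j => by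
    simp only [hAt t ht, Matrix.of_apply]
    congr 2
    exact mul_comm _ _
  set K := Real.exp (n * (-Real.log (1 - y) - (Real.log (1 + y) - Real.log (1 - y)) / 2)) with hK
  -- the Harnack bound
  have hpt : ∀ t (ht : 0 < t) (c : Fin h → ℝ) x, comb u c x ^ 2 ≤
      K * Real.exp (1 / (2 * (1 + y) * t) * dist o x ^ 2) * (c ⬝ᵥ (A t *ᵥ c)) := by
    intro t ht c x
    rw [hAt t ht, quad_eq]
    have h1 := hL1 ⟨t, ht⟩ c x
    set M := K * Real.exp (1 / (2 * (1 + y) * t) * dist o x ^ 2) with hM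
    have h2 : low n (y / ((1 - y) * t)) (comb u c) t x o = comb u c x ^ 2 / M := by
      have e1 : y / ((1 - y) * t) * t = y / (1 - y) := by field_simp
      have e2 : prof (y / ((1 - y) * t)) t = t * (1 + y) := by
        unfold prof
        rw [mul_assoc 2, e1]
        field_simp
        ring
      have e3 : cost n (y / ((1 - y) * t)) t
          = n * (-Real.log (1 - y) - (Real.log (1 + y) - Real.log (1 - y)) / 2) := by
        unfold cost
        rw [mul_assoc 2, e1, show 1 + 2 * (y / (1 - y)) = (1 + y) / (1 - y) by field_simp; ring,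
          show 1 + y / (1 - y) = (1 - y)⁻¹ by field_simp; ring, Real.log_inv,
          Real.log_div (by linarith) hy1'.ne']
      rw [hM, hK, ← Real.exp_add, low, e2, e3, div_eq_mul_inv _ (Real.exp _), ← Real.exp_neg,
        dist_comm x o]
      congr 2
      field_simp
      ring
    rw [h2, div_le_iff₀ (by positivity)] at h1
    linarith
  have hpd : ∀ t, 0 < t → (A t).PosDef := by
    intro t ht
    refine Matrix.PosDef.of_dotProduct_mulVec_pos (by
      rw [Matrix.IsHermitian, conjTranspose_eq_transpose_of_trivial]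
      ext i j; exact hsym t ht j i) fun c hc => ?_
    rw [star_trivial]
    have hne : ∃ x, comb u c x ≠ 0 := by
      by_contra! hall
      refine hc (funext (Fintype.linearIndependent_iff.1 hli c (funext fun x => ?_)))
      simpa [comb] using hall x
    obtain ⟨x, hx⟩ := hne
    exact (pos_iff_pos_of_mul_pos ((sq_pos_of_ne_zero hx).trans_le (hpt t ht c x))).1 (by positivity)
  -- the trace bound
  set M := ((1 - y) ^ n)⁻¹ with hMd
  have htr : ∀ t, 0 < t → ((A t)⁻¹ * A (y * t)).trace ≤ M := by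
    intro t ht
    have hyt : 0 < y * t := mul_pos hy ht
    set B := (A t)⁻¹ with hB
    set Q : prods u := ∑ i, ∑ j, B i j • (⟨_, mul_mem_prods u i j⟩ : prods u) with hQ
    have hQx : ∀ x, (Q : X → ℝ) x = (fun i => u i x) ⬝ᵥ (B *ᵥ fun i => u i x) := by
      intro x
      simp only [hQ, AddSubmonoidClass.coe_finsetSum, SetLike.val_smul, Finset.sum_apply,
        Pi.smul_apply, Pi.mul_apply, smul_eq_mul, dotProduct, mulVec, Finset.mul_sum]
      exact Finset.sum_congr rfl fun i _ => Finset.sum_congr rfl fun j _ => by ring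
    have hbound : ∀ x, (Q : X → ℝ) x ≤ K * Real.exp (1 / (2 * (1 + y) * t) * dist o x ^ 2) := by
      intro x
      set v := fun i => u i x
      have h1 := hpt t ht (B *ᵥ v) x
      rw [Matrix.mulVec_mulVec, Matrix.mul_nonsing_inv _ (hpd t ht).det_pos.ne'.isUnit,
        one_mulVec, show comb u (B *ᵥ v) x = (B *ᵥ v) ⬝ᵥ v from rfl, sq] at h1
      rw [hQx, dotProduct_comm]
      rcases le_or_gt ((B *ᵥ v) ⬝ᵥ v) 0 with h | h
      · exact h.trans (by positivity)
      · exact le_of_mul_le_mul_right h1 h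
    have hlt : 4 * (1 / (2 * (1 + y) * t)) * (y * t) < 1 := by
      field_simp
      linarith
    have h1 := hL2 ⟨y * t, hyt⟩ Q K (1 / (2 * (1 + y) * t)) (Real.exp_pos _).le (by positivity)
      hlt hbound
    have e1 : L ⟨y * t, hyt⟩ Q = (B * A (y * t)).trace := by
      simp only [hQ, map_sum, map_smul, smul_eq_mul, Matrix.trace, Matrix.diag, Matrix.mul_apply]
      refine Finset.sum_congr rfl fun i _ => Finset.sum_congr rfl fun j _ => ?_
      rw [hsym _ hyt j i, hAt _ hyt, Matrix.of_apply]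
    rw [← e1]
    refine h1.trans (le_of_eq ?_)
    have e2 : 1 - 4 * (1 / (2 * (1 + y) * t)) * (y * t) = (1 - y) / (1 + y) := by
      field_simp
      ring
    rw [bar, e2, mul_zero, zero_sub, Real.log_div hy1'.ne' (by linarith), hK, ← Real.exp_add,
      hMd, ← Real.exp_log (pow_pos hy1' n), ← Real.exp_neg, Real.log_pow]
    congr 1
    ring
  -- growth of the determinant
  choose C hC using hg
  set W := ∑ i, C i ^ 2 * (2 : ℝ) ^ d * Real.exp (8 * d ^ 2) *
    Real.exp (-((n : ℝ) / 2 * Real.log (1 / 2))) with hW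
  have hdet : ∀ᶠ t in atTop, (A t).det ≤ (W / h) ^ h * t ^ (d * h) := by
    filter_upwards [eventually_ge_atTop (1 : ℝ)] with t ht
    have ht0 : 0 < t := by linarith
    have h1 : (A t).trace ≤ W * t ^ d := by
      rw [hW, Finset.sum_mul, hAt t ht0]
      refine Finset.sum_le_sum fun i _ => ?_
      rw [Matrix.diag_apply, Matrix.of_apply]
      refine (hL2 ⟨t, ht0⟩ ⟨_, mul_mem_prods u i i⟩
        (C i ^ 2 * (2 : ℝ) ^ d * Real.exp (8 * d ^ 2) * t ^ d) (1 / (8 * t)) (by positivity)
        (by positivity) (by field_simp; norm_num) fun x => ?_).trans (le_of_eq ?_)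
      · have h2 : |u i x| ^ 2 ≤ (C i * (1 + dist o x) ^ d) ^ 2 :=
          pow_le_pow_left₀ (abs_nonneg _) (hC i x) 2
        rw [sq_abs, mul_pow] at h2
        have h3 := mul_le_mul_of_nonneg_left (poly_le_exp hd (dist_nonneg (x := o) (y := x)) ht)
          (sq_nonneg (C i))
        simp only [Pi.mul_apply]
        rw [← sq]
        linarith
      · rw [bar, mul_zero, zero_sub,
          show 1 - 4 * (1 / (8 * t)) * t = 1 / 2 by field_simp; ring]
        ring
    have h2 := H1.card_mul_rpow_det_le_trace (PosDef.one (n := Fin h) (R := ℝ))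
      (hpd t ht0).posSemidef
    rw [det_one, div_one, inv_one, one_mul, Fintype.card_fin, mul_comm,
      ← le_div_iff₀ (by exact_mod_cast h0)] at h2
    have h3 := pow_le_pow_left₀ (Real.rpow_nonneg (hpd t ht0).det_pos.le _) h2 h
    rw [Real.rpow_inv_natCast_pow (hpd t ht0).det_pos.le h0.ne'] at h3
    refine h3.trans ((pow_le_pow_left₀ (div_nonneg (hpd t ht0).posSemidef.trace_nonneg
      (Nat.cast_nonneg h)) (div_le_div_of_nonneg_right h1 (Nat.cast_nonneg h)) h).trans (le_of_eq ?_))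
    rw [Real.rpow_mul ht0.le, Real.rpow_natCast, ← mul_pow]
    ring
  have key : ∀ ε, 0 < ε → (h : ℝ) * y ^ (d + ε) ≤ M := by
    intro ε hε
    obtain ⟨t, ht, hsc⟩ := H1.exists_scale (f := fun t => (A t).det)
      (ε := ε * h) (fun t ht => (hpd t ht).det_pos) hy hy1 (by positivity) hdet 1
    have ht0 : 0 < t := by linarith
    have h1 := (H1.card_mul_rpow_det_le_trace (hpd t ht0)
      (hpd (y * t) (mul_pos hy ht0)).posSemidef).trans (htr t ht0)
    rw [Fintype.card_fin] at h1
    refine le_trans (mul_le_mul_of_nonneg_left ?_ (Nat.cast_nonneg h)) h1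
    have h2 := Real.rpow_le_rpow (by positivity)
      ((le_div_iff₀ (hpd t ht0).det_pos).2 hsc) (inv_nonneg.2 (Nat.cast_nonneg h))
    refine le_trans (le_of_eq ?_) h2
    rw [← Real.rpow_mul hy.le]
    congr 1
    field_simp
  have hlim : Tendsto (fun ε : ℝ => (h : ℝ) * y ^ (d + ε)) (𝓝[>] 0) (𝓝 ((h : ℝ) * y ^ d)) := by
    have : ContinuousAt (fun ε : ℝ => (h : ℝ) * y ^ (d + ε)) 0 :=
      continuousAt_const.mul (continuousAt_const.rpow (continuousAt_const.add continuousAt_id)
        (Or.inl hy.ne'))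
    simpa using this.tendsto.mono_left (nhdsWithin_le_nhds (s := Set.Ioi (0 : ℝ)))
  have hfin := le_of_tendsto hlim (eventually_nhdsWithin_of_forall fun ε hε => key ε hε)
  exact (le_div_iff₀ (pow_pos hy1' n)).1 (by rw [one_div]; exact hfin)

end Vale.Agent.P225.Yau
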