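import Mathlib

/-!
# P225: the second variation form of nonnegative Ricci curvature, harmonic functions of polynomial growth

A space comes with maps `e x` from Euclidean space, the exponential maps. For two points the second
variation of energy along one minimal geodesic, with a parallel frame, gives upper supports for the
squared distance whose first derivatives are those of the geodesic and whose second derivatives sum
to at most the Euclidean value; this is the only way in which curvature enters.
-/

noncomputable section

open Filter Topology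

namespace Vale.Agent.P225.Yau

/-- Euclidean space. -/
abbrev Vec (n : ℕ) := EuclideanSpace ℝ (Fin n)

/-- A standard unit vector. -/
def bas {n : ℕ} (k : Fin n) : Vec n := EuclideanSpace.single k 1

variable {n : ℕ} {X : Type*} [MetricSpace X]

/-- Nonnegative Ricci curvature in dimension `n`, as the second variation inequality along a
minimal geodesic: `J` is parallel transport and `p` twice the initial velocity in the frame. -/
structure NonnegRicci (n : ℕ) (X : Type*) [MetricSpace X] (e : X → Vec n → X) : Prop where
  base : ∀ x, e x 0 = x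
  cont : ∀ x, ContinuousAt (e x) 0
  secondVariation : ∀ x z, ∃ (J : Vec n ≃ₗᵢ[ℝ] Vec n) (p : Fin n → ℝ),
    ∑ k, p k ^ 2 = 4 * dist x z ^ 2 ∧
    ∀ a b : ℝ, ∃ φ : Fin n → ℝ → ℝ,
      ∑ k, deriv (deriv (φ k)) 0 ≤ 2 * n * (a - b) ^ 2 ∧
      ∀ k, ContDiffAt ℝ 2 (φ k) 0 ∧ φ k 0 = dist x z ^ 2 ∧ deriv (φ k) 0 = (a - b) * p k ∧
        ∀ᶠ s : ℝ in 𝓝 0, dist (e x ((a * s) • J (bas k))) (e z ((b * s) • bas k)) ^ 2 ≤ φ k s

/-- A harmonic function: continuous, and in the coordinates `e x` twice differentiable at the
origin with vanishing trace of the Hessian. -/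
def IsHarmonic (e : X → Vec n → X) (u : X → ℝ) : Prop :=
  Continuous u ∧ ∀ x, ContDiffAt ℝ 2 (u ∘ e x) 0 ∧
    ∑ k, fderiv ℝ (fderiv ℝ (u ∘ e x)) 0 (bas k) (bas k) = 0

/-- Growth of order at most `d` seen from `o`. -/
def GrowthLE (o : X) (d : ℝ) (u : X → ℝ) : Prop :=
  ∃ C : ℝ, ∀ x, |u x| ≤ C * (1 + dist o x) ^ d

end Vale.Agent.P225.Yau
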