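import Vale.Agent.P225.Yau.Defs

/-!
# P225: Euclidean space is an instance

The class contains Euclidean space with translations as exponential maps; linear functions are
harmonic of growth one, products of two different coordinates harmonic of growth two.
-/

noncomputable section

open Filter Topology

namespace Vale.Agent.P225.Yau

variable {n : ℕ}

/-- Translations. -/
def euclidExp (n : ℕ) : Vec n → Vec n → Vec n := fun x v => x + v

lemma bas_apply (k i : Fin n) : bas k i = if i = k then 1 else 0 := by
  simp [bas]

lemma dist_sq_eq (x z : Vec n) : dist x z ^ 2 = ∑ k, (x - z) k ^ 2 := by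
  rw [dist_eq_norm, EuclideanSpace.norm_sq_eq]
  simp

lemma deriv_quad (c₀ c₁ c₂ s : ℝ) :
    deriv (fun t => c₀ + c₁ * t + c₂ * t ^ 2) s = c₁ + 2 * c₂ * s := by
  refine HasDerivAt.deriv ?_
  have h := (((hasDerivAt_id s).const_mul c₁).const_add c₀).add
    (((hasDerivAt_id s).pow 2).const_mul c₂)
  exact h.congr_deriv (by simp; ring)

lemma deriv_deriv_quad (c₀ c₁ c₂ : ℝ) :
    deriv (deriv fun t => c₀ + c₁ * t + c₂ * t ^ 2) 0 = 2 * c₂ := by
  rw [show deriv (fun t => c₀ + c₁ * t + c₂ * t ^ 2) = fun s => c₁ + (2 * c₂) * s from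
    funext (deriv_quad c₀ c₁ c₂)]
  exact (((hasDerivAt_id (0 : ℝ)).const_mul (2 * c₂)).const_add c₁).deriv.trans (mul_one _)

/-- Euclidean space belongs to the class. -/
theorem nonnegRicci_euclid (n : ℕ) : NonnegRicci n (Vec n) (euclidExp n) where
  base x := add_zero x
  cont x := (continuous_const.add continuous_id).continuousAt
  secondVariation x z := by
    refine ⟨LinearIsometryEquiv.refl ℝ _, fun k => 2 * (x - z) k, ?_, fun a b =>
      ⟨fun k s => dist x z ^ 2 + (a - b) * (2 * (x - z) k) * s + (a - b) ^ 2 * s ^ 2, ?_,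
        fun k => ⟨by fun_prop, by simp, by rw [deriv_quad]; ring, ?_⟩⟩⟩
    · rw [dist_sq_eq, Finset.mul_sum]
      exact Finset.sum_congr rfl fun k _ => by ring
    · simp only [deriv_deriv_quad, Finset.sum_const, Finset.card_univ, Fintype.card_fin,
        nsmul_eq_mul]
      exact le_of_eq (by ring)
    · refine Eventually.of_forall fun s => le_of_eq ?_
      simp only [euclidExp, LinearIsometryEquiv.coe_refl, id_eq]
      rw [dist_sq_eq, dist_sq_eq]
      simp only [PiLp.add_apply, PiLp.sub_apply, PiLp.smul_apply, bas_apply, smul_eq_mul]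
      have h : ∀ i, (x i + a * s * (if i = k then 1 else 0) -
          (z i + b * s * (if i = k then 1 else 0))) ^ 2 = (x i - z i) ^ 2 +
          if i = k then 2 * (a - b) * s * (x i - z i) + (a - b) ^ 2 * s ^ 2 else 0 := fun i => by
        split_ifs <;> ring
      simp only [h, Finset.sum_add_distrib, Finset.sum_ite_eq', Finset.mem_univ, if_true]
      ring

/-- A coordinate. -/
def coord (i : Fin n) : Vec n →L[ℝ] ℝ := EuclideanSpace.proj i

/-- Coordinates are harmonic. -/
theorem isHarmonic_coord (i : Fin n) : IsHarmonic (euclidExp n) (fun x : Vec n => x i) := by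
  refine ⟨(coord i).continuous, fun x => ?_⟩
  have h : ((fun y : Vec n => y i) ∘ euclidExp n x) = fun v => x i + coord i v := rfl
  rw [h]
  refine ⟨(contDiff_const.add (coord i).contDiff).contDiffAt, ?_⟩
  have h1 : fderiv ℝ (fun v : Vec n => x i + coord i v) = fun _ => coord i :=
    funext fun v => ((coord i).hasFDerivAt.const_add _).fderiv
  simp [h1]

/-- Coordinates have growth one. -/
theorem growthLE_coord (i : Fin n) : GrowthLE (0 : Vec n) 1 (fun x : Vec n => x i) := by
  refine ⟨1, fun x => ?_⟩
  rw [Real.rpow_one, one_mul, dist_zero_left]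
  exact (PiLp.norm_apply_le x i).trans (le_add_of_nonneg_left zero_le_one)

/-- Constants are harmonic. -/
theorem isHarmonic_const (c : ℝ) : IsHarmonic (euclidExp n) (fun _ : Vec n => c) := by
  refine ⟨continuous_const, fun x => ⟨contDiffAt_const, ?_⟩⟩
  simp [Function.comp_def]

/-- A product of two different coordinates is harmonic. -/
theorem isHarmonic_mul {i j : Fin n} (hij : i ≠ j) :
    IsHarmonic (euclidExp n) (fun x : Vec n => x i * x j) := by
  refine ⟨(coord i).continuous.mul (coord j).continuous, fun x => ?_⟩
  have h : ((fun y : Vec n => y i * y j) ∘ euclidExp n x) =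
      fun v => (x i + coord i v) * (x j + coord j v) := rfl
  rw [h]
  refine ⟨((contDiff_const.add (coord i).contDiff).mul
    (contDiff_const.add (coord j).contDiff)).contDiffAt, ?_⟩
  have h1 : fderiv ℝ (fun v : Vec n => (x i + coord i v) * (x j + coord j v)) =
      fun v => (x i + coord i v) • coord j + (x j + coord j v) • coord i :=
    funext fun v => (((coord i).hasFDerivAt.const_add _).mul
      ((coord j).hasFDerivAt.const_add _)).fderiv
  have h2 : fderiv ℝ (fun v : Vec n => (x i + coord i v) • coord j + (x j + coord j v) • coord i)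
      0 = (coord i).smulRight (coord j) + (coord j).smulRight (coord i) :=
    ((((coord i).hasFDerivAt.const_add _).smul_const (coord j)).add
      (((coord j).hasFDerivAt.const_add _).smul_const (coord i))).fderiv
  rw [h1]
  refine Finset.sum_eq_zero fun k _ => ?_
  rw [h2]
  simp only [coord, add_apply, ContinuousLinearMap.smulRight_apply,
    smul_apply, EuclideanSpace.coe_proj, smul_eq_mul, bas_apply]
  split_ifs with h3 h4 <;> first | exact absurd (h3.trans h4.symm) hij | simp

/-- Products of two coordinates have growth two. -/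
theorem growthLE_mul (i j : Fin n) : GrowthLE (0 : Vec n) 2 (fun x : Vec n => x i * x j) := by
  refine ⟨1, fun x => ?_⟩
  have hi : |x i| ≤ ‖x‖ := PiLp.norm_apply_le x i
  have hj : |x j| ≤ ‖x‖ := PiLp.norm_apply_le x j
  rw [one_mul, dist_zero_left, Real.rpow_two, abs_mul]
  refine (mul_le_mul hi hj (abs_nonneg _) (norm_nonneg _)).trans ?_
  nlinarith [norm_nonneg x]

end Vale.Agent.P225.Yau
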