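import Vale.Agent.P225.Yau.Compare

/-!
# P225: positive functionals replacing the heat kernel

By Hahn-Banach there is at each time a linear functional on products of the harmonic functions
that lies above every subsolution and below every barrier.
-/

noncomputable section

open Filter Topology

namespace Vale.Agent.P225.Yau

variable {n h : ℕ} {X : Type*} [MetricSpace X] {e : X → Vec n → X} {o : X}

/-- A linear combination. -/
def comb (u : Fin h → X → ℝ) (c : Fin h → ℝ) : X → ℝ := fun x => ∑ i, c i * u i x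

/-- The span of the products. -/
def prods (u : Fin h → X → ℝ) : Submodule ℝ (X → ℝ) :=
  Submodule.span ℝ (Set.range fun p : Fin h × Fin h => u p.1 * u p.2)

omit [MetricSpace X] in
lemma mul_mem_prods (u : Fin h → X → ℝ) (i j : Fin h) : u i * u j ∈ prods u :=
  Submodule.subset_span ⟨(i, j), rfl⟩

omit [MetricSpace X] in
lemma comb_sq_mem (u : Fin h → X → ℝ) (c : Fin h → ℝ) : (fun x => comb u c x ^ 2) ∈ prods u := by
  have : (fun x => comb u c x ^ 2) = ∑ i, ∑ j, (c i * c j) • (u i * u j) := by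
    funext x
    simp only [comb, sq, Finset.sum_mul_sum, Finset.sum_apply, Pi.smul_apply, Pi.mul_apply,
      smul_eq_mul]
    exact Finset.sum_congr rfl fun i _ => Finset.sum_congr rfl fun j _ => by ring
  rw [this]
  exact Submodule.sum_mem _ fun i _ => Submodule.sum_mem _ fun j _ =>
    Submodule.smul_mem _ _ (mul_mem_prods u i j)

lemma IsHarmonic.comb {u : Fin h → X → ℝ} (hu : ∀ i, IsHarmonic e (u i)) (c : Fin h → ℝ) :
    IsHarmonic e (comb u c) := by
  refine ⟨continuous_finsetSum _ fun i _ => (hu i).1.const_smul (c i), fun x => ?_⟩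
  set U := fun i => u i ∘ e x
  have hU : ∀ i, ContDiffAt ℝ 2 (U i) 0 := fun i => ((hu i).2 x).1
  have he : Vale.Agent.P225.Yau.comb u c ∘ e x = fun y => ∑ i, c i • U i y := rfl
  rw [he]
  refine ⟨ContDiffAt.sum fun i _ => (hU i).const_smul (c i), ?_⟩
  have h1 : fderiv ℝ (fun y => ∑ i, c i • U i y) =ᶠ[𝓝 0] fun y => ∑ i, c i • fderiv ℝ (U i) y := by
    filter_upwards [eventually_all.2 fun i => (hU i).eventually (by norm_num)] with y hy
    exact (HasFDerivAt.fun_sum fun i _ =>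
      (((hy i).differentiableAt two_ne_zero).hasFDerivAt.const_smul (c i))).fderiv
  have hd : ∀ i, DifferentiableAt ℝ (fderiv ℝ (U i)) 0 := fun i =>
    ((hU i).fderiv_right (m := 1) (by norm_num)).differentiableAt one_ne_zero
  have h2 : HasFDerivAt (fun y => ∑ i, c i • fderiv ℝ (U i) y)
      (∑ i, c i • fderiv ℝ (fderiv ℝ (U i)) 0) 0 :=
    HasFDerivAt.fun_sum fun i _ => (hd i).hasFDerivAt.const_smul (c i)
  rw [h1.fderiv_eq, h2.fderiv]
  simp only [FunLike.coe_sum, Finset.sum_apply, _root_.smul_apply]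
  rw [Finset.sum_comm]
  simp only [← Finset.smul_sum, U, ((hu _).2 x).2, smul_zero, Finset.sum_const_zero]

lemma GrowthLE.comb {k : ℝ} {u : Fin h → X → ℝ} (hg : ∀ i, GrowthLE o k (u i)) (c : Fin h → ℝ) :
    GrowthLE o k (comb u c) := by
  choose C hC using hg
  refine ⟨∑ i, |c i| * C i, fun x => ?_⟩
  rw [Finset.sum_mul]
  refine (Finset.abs_sum_le_sum_abs _ _).trans (Finset.sum_le_sum fun i _ => ?_)
  rw [abs_mul, mul_assoc]
  exact mul_le_mul_of_nonneg_left (hC i x) (abs_nonneg _)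

lemma growth_exp {k : ℝ} (hk : 0 ≤ k) {u : X → ℝ} (hu : GrowthLE o k u) {t : ℝ} (ht : 0 < t) :
    ∃ C : ℝ, 0 ≤ C ∧ ∀ z, u z ^ 2 ≤ C * Real.exp (1 / (8 * t) * dist o z ^ 2) := by
  obtain ⟨C, hC⟩ := hu
  refine ⟨C ^ 2 * Real.exp (8 * t * k ^ 2), by positivity, fun z => ?_⟩
  set r := dist o z
  have h1 : |u z| ≤ |C| * Real.exp (k * r) := by
    refine (hC z).trans (mul_le_mul (le_abs_self C) ?_ (by positivity) (abs_nonneg _))
    rw [mul_comm k, Real.exp_mul]
    exact Real.rpow_le_rpow (by positivity) (by linarith [Real.add_one_le_exp r]) hk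
  rw [← sq_abs, mul_assoc, ← Real.exp_add]
  refine (pow_le_pow_left₀ (abs_nonneg _) h1 2).trans ?_
  rw [mul_pow, sq_abs, ← Real.exp_nat_mul]
  refine mul_le_mul_of_nonneg_left (Real.exp_le_exp.2 ?_) (sq_nonneg _)
  have := sq_nonneg (r - 8 * t * k)
  push_cast
  field_simp
  nlinarith

lemma prods_bound {k : ℝ} (hk : 0 ≤ k) {u : Fin h → X → ℝ} (hg : ∀ i, GrowthLE o k (u i)) {t : ℝ}
    (ht : 0 < t) {g : X → ℝ} (hgm : g ∈ prods u) :
    ∃ K : ℝ, 0 ≤ K ∧ ∀ z, |g z| ≤ K * Real.exp (1 / (8 * t) * dist o z ^ 2) := by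
  induction hgm using Submodule.span_induction with
  | mem g hg' =>
    obtain ⟨⟨i, j⟩, rfl⟩ := hg'
    obtain ⟨Ci, hCi0, hCi⟩ := growth_exp hk (hg i) ht
    obtain ⟨Cj, hCj0, hCj⟩ := growth_exp hk (hg j) ht
    refine ⟨Ci + Cj, add_nonneg hCi0 hCj0, fun z => ?_⟩
    simp only [Pi.mul_apply]
    rw [add_mul, abs_le]
    constructor <;>
      nlinarith [hCi z, hCj z, sq_nonneg (u i z + u j z), sq_nonneg (u i z - u j z)]
  | zero => exact ⟨0, le_rfl, fun z => by simp⟩
  | add a b _ _ ha hb =>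
    obtain ⟨Ka, hKa, ha⟩ := ha
    obtain ⟨Kb, hKb, hb⟩ := hb
    exact ⟨Ka + Kb, add_nonneg hKa hKb, fun z => (abs_add_le _ _).trans
      (by rw [add_mul]; exact add_le_add (ha z) (hb z))⟩
  | smul a b _ hb =>
    obtain ⟨Kb, hKb, hb⟩ := hb
    exact ⟨|a| * Kb, by positivity, fun z => by
      rw [Pi.smul_apply, smul_eq_mul, abs_mul, mul_assoc]
      exact mul_le_mul_of_nonneg_left (hb z) (abs_nonneg _)⟩

/-- `r` is an admissible upper value for `g` at time `t`. -/
def Adm (n : ℕ) (m t : ℝ) (o : X) (u : Fin h → X → ℝ) (g : X → ℝ) (r : ℝ) : Prop :=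
  ∃ (a b : ℕ) (w : Fin a → Fin h → ℝ) (x : Fin a → X) (c l : Fin b → ℝ),
    (∀ j, 0 ≤ c j ∧ 0 ≤ l j ∧ 4 * l j * t < 1) ∧
    (∀ z, g z + ∑ i, comb u (w i) z ^ 2 ≤ ∑ j, c j * Real.exp (l j * dist o z ^ 2)) ∧
    r = ∑ j, c j * bar n (l j) t 0 - ∑ i, low n m (comb u (w i)) t (x i) o

lemma Adm.add {m t : ℝ} {u : Fin h → X → ℝ} {g g' : X → ℝ} {r r' : ℝ}
    (hr : Adm n m t o u g r) (hr' : Adm n m t o u g' r') : Adm n m t o u (g + g') (r + r') := by
  obtain ⟨a, b, w, x, c, l, h1, h2, rfl⟩ := hr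
  obtain ⟨a', b', w', x', c', l', h1', h2', rfl⟩ := hr'
  refine ⟨a + a', b + b', Fin.append w w', Fin.append x x', Fin.append c c', Fin.append l l',
    fun j => ?_, fun z => ?_, ?_⟩
  · refine Fin.addCases (fun j => ?_) (fun j => ?_) j
    · simpa using h1 j
    · simpa using h1' j
  · simp only [Fin.sum_univ_add, Fin.append_left, Fin.append_right, Pi.add_apply]
    linarith [h2 z, h2' z]
  · simp only [Fin.sum_univ_add, Fin.append_left, Fin.append_right]
    ring

lemma Adm.smul {m t : ℝ} {u : Fin h → X → ℝ} {g : X → ℝ} {r : ℝ} {s : ℝ} (hs : 0 ≤ s)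
    (hr : Adm n m t o u g r) : Adm n m t o u (s • g) (s * r) := by
  obtain ⟨a, b, w, x, c, l, h1, h2, rfl⟩ := hr
  have e1 : ∀ i z, comb u (Real.sqrt s • w i) z = Real.sqrt s * comb u (w i) z := fun i z => by
    simp [comb, Finset.mul_sum, mul_assoc]
  refine ⟨a, b, fun i => Real.sqrt s • w i, x, fun j => s * c j, l,
    fun j => ⟨mul_nonneg hs (h1 j).1, (h1 j).2⟩, fun z => ?_, ?_⟩
  · simp only [e1, mul_pow, Real.sq_sqrt hs, Pi.smul_apply, smul_eq_mul, mul_assoc, ← Finset.mul_sum,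
      ← mul_add]
    exact mul_le_mul_of_nonneg_left (h2 z) hs
  · simp only [low, e1, mul_pow, Real.sq_sqrt hs, mul_sub, Finset.mul_sum, mul_assoc]

/-- The functional at time `t`. -/
theorem exists_functional [ProperSpace X] (hR : NonnegRicci n X e) {k : ℝ} (hk : 0 ≤ k)
    (u : Fin h → X → ℝ) (hu : ∀ i, IsHarmonic e (u i)) (hg : ∀ i, GrowthLE o k (u i)) {m t : ℝ}
    (hm : 0 ≤ m) (ht : 0 < t) :
    ∃ L : prods u →ₗ[ℝ] ℝ,
      (∀ (c : Fin h → ℝ) (x : X), low n m (comb u c) t x o ≤ L ⟨_, comb_sq_mem u c⟩) ∧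
      ∀ (g : prods u) (C l : ℝ), 0 ≤ C → 0 ≤ l → 4 * l * t < 1 →
        (∀ z, (g : X → ℝ) z ≤ C * Real.exp (l * dist o z ^ 2)) → L g ≤ C * bar n l t 0 := by
  set l₀ := 1 / (8 * t)
  have hl₀ : 4 * l₀ * t < 1 := by simp only [l₀]; field_simp; norm_num
  set S : prods u → Set ℝ := fun g => {r | Adm n m t o u (g : X → ℝ) r}
  have hne : ∀ g, (S g).Nonempty := fun g => by
    obtain ⟨K, hK0, hK⟩ := prods_bound hk hg ht g.2
    refine ⟨_, 0, 1, Fin.elim0, Fin.elim0, fun _ => K, fun _ => l₀,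
      fun _ => ⟨hK0, by positivity, hl₀⟩, fun z => ?_, rfl⟩
    simp only [Finset.univ_eq_empty, Finset.sum_empty, add_zero, Finset.univ_unique, Finset.sum_singleton]
    exact (le_abs_self _).trans (hK z)
  have hlow : ∀ g : prods u, ∀ K, 0 ≤ K →
      (∀ z, -(K * Real.exp (l₀ * dist o z ^ 2)) ≤ (g : X → ℝ) z) →
      ∀ r ∈ S g, -(K * bar n l₀ t 0) ≤ r := by
    rintro g K hK0 hK r ⟨a, b, w, x, c, l, h1, h2, rfl⟩
    have h3 := comparison hR hk hm ht (fun i => comb u (w i)) (fun i => IsHarmonic.comb hu _)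
      (fun i => GrowthLE.comb hg _) (fun j : Option (Fin b) => j.elim K c)
      (fun j : Option (Fin b) => j.elim l₀ l)
      (fun j => by cases j with
        | none => exact hK0
        | some j => exact (h1 j).1)
      (fun j => by cases j with
        | none => simp only [Option.elim, l₀]; positivity
        | some j => exact (h1 j).2.1)
      (fun j => by cases j with
        | none => exact hl₀
        | some j => exact (h1 j).2.2)
      (fun z => by simp only [Fintype.sum_option, Option.elim]; linarith [h2 z, hK z]) x o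
    simp only [Fintype.sum_option, Option.elim, dist_self, ne_eq, OfNat.ofNat_ne_zero,
      not_false_eq_true, zero_pow] at h3
    linarith
  have hbdd : ∀ g, BddBelow (S g) := fun g => by
    obtain ⟨K, hK0, hK⟩ := prods_bound hk hg ht g.2
    exact ⟨_, fun r hr => hlow g K hK0 (fun z => (abs_le.1 (hK z)).1) r hr⟩
  set N : prods u → ℝ := fun g => sInf (S g)
  have hle : ∀ (g : prods u) (s : ℝ), 0 < s → N (s • g) ≤ s * N g := by
    intro g s hs
    rw [← div_le_iff₀' hs]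
    refine le_csInf (hne g) fun r hr => ?_
    rw [div_le_iff₀' hs]
    exact csInf_le (hbdd _) (Adm.smul hs.le hr)
  have hhom : ∀ s : ℝ, 0 < s → ∀ g, N (s • g) = s * N g := fun s hs g => le_antisymm (hle g s hs) <| by
    have := hle (s • g) s⁻¹ (inv_pos.2 hs)
    rwa [smul_smul, inv_mul_cancel₀ hs.ne', one_smul, le_inv_mul_iff₀ hs] at this
  have hadd : ∀ g g', N (g + g') ≤ N g + N g' := fun g g' => by
    rw [← sub_le_iff_le_add]
    refine le_csInf (hne g) fun r hr => ?_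
    rw [sub_le_comm]
    refine le_csInf (hne g') fun r' hr' => ?_
    rw [sub_le_iff_le_add']
    exact csInf_le (hbdd _) (Adm.add hr hr')
  have hzero : 0 ≤ N 0 := le_csInf (hne 0) fun r hr => by
    simpa using hlow 0 0 le_rfl (fun z => by simp) r hr
  obtain ⟨L, -, hL⟩ := exists_extension_of_le_sublinear (E := prods u) ⊥ N hhom hadd (by
    rintro ⟨g, hg'⟩
    obtain rfl : g = 0 := (Submodule.mem_bot ℝ).1 hg'
    exact le_of_eq_of_le (map_zero (⊥ : prods u →ₗ.[ℝ] ℝ).toFun) hzero)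
  refine ⟨L, fun c x => ?_, fun g C l hC hl hlt hgz => ?_⟩
  · have h1 := (hL (-⟨_, comb_sq_mem u c⟩)).trans (csInf_le (hbdd _) (a := -low n m (comb u c) t x o)
      ⟨1, 0, fun _ => c, fun _ => x, Fin.elim0, Fin.elim0, fun j => j.elim0, fun z => by simp,
        by simp⟩)
    rw [map_neg] at h1
    linarith
  · exact (hL g).trans (csInf_le (hbdd _) ⟨0, 1, Fin.elim0, Fin.elim0, fun _ => C, fun _ => l,
      fun _ => ⟨hC, hl, hlt⟩, fun z => by simpa using hgz z, by simp⟩)

end Vale.Agent.P225.Yau
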