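import Vale.Agent.P225.Yau.Statement

/-!
# The counting bound against the Euclidean dimension
-/

namespace Vale.Agent.P225.Yau

open Real

variable {h k n : ℕ}

/-- Polynomials of degree at most `k` against harmonic polynomials of degree at most `k`. -/
theorem choose_le_harmonic (hn : 1 ≤ n) (hk : 1 ≤ k) :
    ((n + k).choose k : ℝ) ≤ (1 + (k : ℝ) / (2 * n)) *
      (((n + k - 1).choose k + (n + k - 2).choose (k - 1) : ℕ) : ℝ) := by
  have hn' : (1 : ℝ) ≤ n := by exact_mod_cast hn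
  have hk' : (1 : ℝ) ≤ k := by exact_mod_cast hk
  have h5 := Nat.choose_mul_succ_eq (n + k - 1) k
  rw [show n + k - 1 + 1 = n + k by omega, show n + k - k = n by omega] at h5
  have h6 : ((n + k - 1).choose k : ℝ) * ((n : ℝ) + k) = ((n + k).choose k : ℝ) * n := by
    exact_mod_cast h5
  have h7 := Nat.add_one_mul_choose_eq (n + k - 2) (k - 1)
  rw [show n + k - 2 + 1 = n + k - 1 by omega, show k - 1 + 1 = k by omega] at h7
  have h8 : ((n : ℝ) + k - 1) * ((n + k - 2).choose (k - 1) : ℝ)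
      = ((n + k - 1).choose k : ℝ) * k := by
    have h9 := congrArg (Nat.cast : ℕ → ℝ) h7
    push_cast [Nat.cast_sub (show 1 ≤ n + k by omega)] at h9
    exact h9
  push_cast
  set a : ℝ := ((Nat.choose (n + k - 2) (k - 1) : ℕ) : ℝ) with ha'
  set b : ℝ := ((Nat.choose (n + k - 1) k : ℕ) : ℝ) with hb'
  set c : ℝ := ((Nat.choose (n + k) k : ℕ) : ℝ) with hc'
  have ha : 0 ≤ a := Nat.cast_nonneg _
  have hb : 0 ≤ b := Nat.cast_nonneg _
  have key : c * (n * ((n : ℝ) + k - 1)) ≤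
      (1 + (k : ℝ) / (2 * n)) * (b + a) * (n * ((n : ℝ) + k - 1)) := by
    calc c * (n * ((n : ℝ) + k - 1)) = (c * n) * ((n : ℝ) + k - 1) := by ring
      _ = b * (((n : ℝ) + k) * ((n : ℝ) + k - 1)) := by rw [← h6]; ring
      _ ≤ b * ((1 + (k : ℝ) / (2 * n)) * (n * ((n : ℝ) + 2 * k - 1))) := by
        refine mul_le_mul_of_nonneg_left ?_ hb
        rw [show (1 + (k : ℝ) / (2 * n)) * (n * ((n : ℝ) + 2 * k - 1))
          = ((n : ℝ) + k / 2) * ((n : ℝ) + 2 * k - 1) by field_simp]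
        nlinarith
      _ = (1 + (k : ℝ) / (2 * n)) * (b + a) * (n * ((n : ℝ) + k - 1)) := by
        linear_combination (-(1 + (k : ℝ) / (2 * n)) * n) * h8
  exact le_of_mul_le_mul_right key (by nlinarith)

/-- The counting bound as a multiple of the Euclidean dimension. -/
theorem le_min_euclid_of_bound (hn : 1 ≤ n) (hk : 1 ≤ k)
    (hy : ∀ y : ℝ, 0 < y → y < 1 → (h : ℝ) * y ^ (k : ℝ) * (1 - y) ^ n ≤ 1) :
    (h : ℝ) ≤ exp 1 * √(min n k : ℕ) * (1 + (k : ℝ) / (2 * n)) *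
      (((n + k - 1).choose k + (n + k - 2).choose (k - 1) : ℕ) : ℝ) := by
  have hn' : (0 : ℝ) < n := by exact_mod_cast hn
  have hk' : (0 : ℝ) < k := by exact_mod_cast hk
  have h1 := le_pow_mul_pow_of_bound hn hk hy
  have h2 := H1.pow_div_le_choose n hk
  have h2' := H1.pow_div_le_choose k hn
  rw [add_comm k n, mul_comm ((k : ℝ) ^ k), ← Nat.choose_symm (Nat.le_add_right n k),
    Nat.add_sub_cancel_left] at h2'
  have h3 : (1 + (k : ℝ) / n) ^ n * (1 + (n : ℝ) / k) ^ k =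
      ((n + k : ℕ) : ℝ) ^ (n + k) / ((n : ℝ) ^ n * (k : ℝ) ^ k) := by
    rw [one_add_div hn'.ne', one_add_div hk'.ne', div_pow, div_pow, div_mul_div_comm,
      add_comm (k : ℝ) n, ← pow_add]
    push_cast
    rfl
  rw [h3] at h1
  have h4 : (h : ℝ) ≤ exp 1 * √(min n k : ℕ) * ((n + k).choose k) := by
    rcases le_total n k with hnk | hnk
    · rw [min_eq_left hnk]; exact h1.trans h2'
    · rw [min_eq_right hnk]; exact h1.trans h2
  calc (h : ℝ) ≤ exp 1 * √(min n k : ℕ) * ((n + k).choose k) := h4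
    _ ≤ _ := by
      rw [mul_assoc _ (1 + (k : ℝ) / (2 * n))]
      exact mul_le_mul_of_nonneg_left (choose_le_harmonic hn hk) (by positivity)

end Vale.Agent.P225.Yau
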