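import Vale.Agent.P225.H1.Ineq

/-!
# The best parameter in the counting bound
-/

namespace Vale.Agent.P225.Yau

open Real

variable {h k n : ℕ}

/-- The parameter `y = k/(n+k)` in `h y^k (1-y)^n ≤ 1`. -/
theorem le_pow_mul_pow_of_bound (hn : 1 ≤ n) (hk : 1 ≤ k)
    (hy : ∀ y : ℝ, 0 < y → y < 1 → (h : ℝ) * y ^ (k : ℝ) * (1 - y) ^ n ≤ 1) :
    (h : ℝ) ≤ (1 + (k : ℝ) / n) ^ n * (1 + (n : ℝ) / k) ^ k := by
  have hn' : (0 : ℝ) < n := by exact_mod_cast hn
  have hk' : (0 : ℝ) < k := by exact_mod_cast hk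
  have hy' := hy ((k : ℝ) / (n + k)) (by positivity) ((div_lt_one (by positivity)).2 (by linarith))
  rw [rpow_natCast] at hy'
  have e1 : (1 + (k : ℝ) / n) = (1 - (k : ℝ) / (n + k))⁻¹ := by
    rw [one_sub_div (by positivity), inv_div, add_sub_cancel_right, one_add_div hn'.ne']
  have e2 : (1 + (n : ℝ) / k) = ((k : ℝ) / (n + k))⁻¹ := by
    rw [inv_div, one_add_div hk'.ne', add_comm]
  have hp : (0 : ℝ) < 1 - (k : ℝ) / (n + k) := by
    rw [sub_pos, div_lt_one (by positivity)]; linarith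
  rw [e1, e2, inv_pow, inv_pow, ← mul_inv, ← one_div, le_div_iff₀ (by positivity)]
  linarith

/-- The same bound against the dimension of the harmonic polynomials of degree at most `k`. -/
theorem le_euclid_of_bound (hn : 1 ≤ n) (hk : 1 ≤ k)
    (hy : ∀ y : ℝ, 0 < y → y < 1 → (h : ℝ) * y ^ (k : ℝ) * (1 - y) ^ n ≤ 1) :
    (h : ℝ) ≤ exp 1 * √k * (1 + (k : ℝ) / n) *
      (((n + k - 1).choose k + (n + k - 2).choose (k - 1) : ℕ) : ℝ) := by
  have hn' : (0 : ℝ) < n := by exact_mod_cast hn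
  have hk' : (0 : ℝ) < k := by exact_mod_cast hk
  have h1 := le_pow_mul_pow_of_bound hn hk hy
  have h2 := H1.pow_div_le_choose n hk
  have h3 : (1 + (k : ℝ) / n) ^ n * (1 + (n : ℝ) / k) ^ k =
      ((n + k : ℕ) : ℝ) ^ (n + k) / ((n : ℝ) ^ n * (k : ℝ) ^ k) := by
    rw [one_add_div hn'.ne', one_add_div hk'.ne', div_pow, div_pow, div_mul_div_comm,
      add_comm (k : ℝ) n, ← pow_add]
    push_cast
    rfl
  have h4 : ((n + k).choose k : ℝ) = (1 + (k : ℝ) / n) * ((n + k - 1).choose k : ℝ) := by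
    have h5 := Nat.choose_mul_succ_eq (n + k - 1) k
    rw [show n + k - 1 + 1 = n + k by omega, show n + k - k = n by omega] at h5
    have h6 : ((n + k - 1).choose k : ℝ) * ((n : ℝ) + k) = ((n + k).choose k : ℝ) * n := by
      exact_mod_cast h5
    rw [one_add_div hn'.ne', div_mul_eq_mul_div, eq_div_iff hn'.ne', ← h6, mul_comm]
  calc (h : ℝ) ≤ exp 1 * √k * ((n + k).choose k) := h1.trans (h3 ▸ h2)
    _ = exp 1 * √k * (1 + (k : ℝ) / n) * ((n + k - 1).choose k : ℝ) := by rw [h4]; ring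
    _ ≤ _ := by
      gcongr
      exact Nat.le_add_right _ _

end Vale.Agent.P225.Yau
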