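import Vale.Agent.P225.Yau.Defs

/-!
# P225: the comparison function and the barriers along one geodesic variation

For the profile `T`, `cost` the function `u x ^ 2 exp (-d (x, z) ^ 2 / (2 T) - cost)` is a
subsolution of the heat equation at a maximum point in `x`, and the Gaussian barriers are
supersolutions; both in the sense of one variable second derivatives.
-/

noncomputable section

open Filter Topology

namespace Vale.Agent.P225.Yau

variable {n : ℕ} {X : Type*} [MetricSpace X] {e : X → Vec n → X} {o : X}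

/-- The time profile of the exponent. -/
def prof (m t : ℝ) : ℝ := t * (1 + 2 * m * t) / (1 + m * t)

/-- The dimensional cost. -/
def cost (n : ℕ) (m t : ℝ) : ℝ := n * (Real.log (1 + m * t) - Real.log (1 + 2 * m * t) / 2)

/-- The subsolution attached to `u` and a point `x`. -/
def low (n : ℕ) (m : ℝ) (u : X → ℝ) (t : ℝ) (x z : X) : ℝ :=
  u x ^ 2 * Real.exp (-(dist x z ^ 2 / (2 * prof m t)) - cost n m t)

/-- The Gaussian barrier. -/
def bar (n : ℕ) (l t r : ℝ) : ℝ :=
  Real.exp (l / (1 - 4 * l * t) * r - n / 2 * Real.log (1 - 4 * l * t))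

lemma differentiableAt_deriv {f : ℝ → ℝ} {x : ℝ} (hf : ContDiffAt ℝ 2 f x) :
    DifferentiableAt ℝ (deriv f) x := by
  rw [show deriv f = fun y => fderiv ℝ f y 1 from funext fun y => fderiv_apply_one_eq_deriv.symm]
  exact ((hf.fderiv_right (m := 1) (by norm_num)).differentiableAt one_ne_zero).clm_apply
    (differentiableAt_const _)

lemma second_deriv_exp_mul {f g : ℝ → ℝ} {x : ℝ} (hf : ContDiffAt ℝ 2 f x)
    (hg : ContDiffAt ℝ 2 g x) :
    deriv (deriv fun s => f s * Real.exp (g s)) x = Real.exp (g x) * (deriv (deriv f) x +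
      2 * deriv f x * deriv g x + f x * (deriv g x ^ 2 + deriv (deriv g) x)) := by
  have hf1 : ∀ᶠ s in 𝓝 x, DifferentiableAt ℝ f s :=
    (hf.eventually (by norm_num)).mono fun s hs => hs.differentiableAt two_ne_zero
  have hg1 : ∀ᶠ s in 𝓝 x, DifferentiableAt ℝ g s :=
    (hg.eventually (by norm_num)).mono fun s hs => hs.differentiableAt two_ne_zero
  have hdf : DifferentiableAt ℝ (deriv f) x :=
    differentiableAt_deriv hf
  have hdg : DifferentiableAt ℝ (deriv g) x :=
    differentiableAt_deriv hg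
  have he : (deriv fun s => f s * Real.exp (g s)) =ᶠ[𝓝 x]
      fun s => (deriv f s + f s * deriv g s) * Real.exp (g s) := by
    filter_upwards [hf1, hg1] with s h1 h2
    rw [(h1.hasDerivAt.fun_mul h2.hasDerivAt.exp).deriv]
    ring
  have h1 := hf.differentiableAt two_ne_zero
  have h2 := hg.differentiableAt two_ne_zero
  have h3 := (hdf.hasDerivAt.fun_add (h1.hasDerivAt.fun_mul hdg.hasDerivAt)).fun_mul
    h2.hasDerivAt.exp
  rw [he.deriv_eq, h3.deriv]
  ring

lemma deriv2_nonneg_of_isLocalMin {F : ℝ → ℝ} {x : ℝ} (hF : ContDiffAt ℝ 2 F x)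
    (hmin : IsLocalMin F x) : 0 ≤ deriv (deriv F) x := by
  by_contra! hlt
  have hmax := isLocalMax_of_deriv_deriv_neg hlt hmin.deriv_eq_zero hF.continuousAt
  have hc : F =ᶠ[𝓝 x] fun _ => F x := by
    filter_upwards [hmin, hmax] with y h1 h2
    exact le_antisymm h2 h1
  have h1 : deriv F =ᶠ[𝓝 x] fun _ => (0 : ℝ) :=
    hc.eventuallyEq_nhds.mono fun y hy => by
      rw [hy.deriv_eq, deriv_const]
  rw [h1.deriv_eq, deriv_const] at hlt
  exact lt_irrefl _ hlt

lemma deriv2_comp_line {f : Vec n → ℝ} (hf : ContDiffAt ℝ 2 f 0) (a : ℝ) (w : Vec n) :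
    ContDiffAt ℝ 2 (fun s : ℝ => f ((a * s) • w)) 0 ∧
    deriv (fun s : ℝ => f ((a * s) • w)) 0 = a * fderiv ℝ f 0 w ∧
    deriv (deriv fun s : ℝ => f ((a * s) • w)) 0 = a ^ 2 * fderiv ℝ (fderiv ℝ f) 0 w w := by
  have hline : ∀ s : ℝ, HasDerivAt (fun r : ℝ => (a * r) • w) (a • w) s := fun s => by
    simpa using ((hasDerivAt_id s).const_mul a).smul_const w
  have h0 : (a * (0 : ℝ)) • w = 0 := by simp
  have hd : ∀ᶠ y in 𝓝 (0 : Vec n), DifferentiableAt ℝ f y :=
    (hf.eventually (by norm_num)).mono fun s hs => hs.differentiableAt two_ne_zero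
  have ht : Tendsto (fun r : ℝ => (a * r) • w) (𝓝 0) (𝓝 0) := by
    simpa [h0] using (hline 0).continuousAt.tendsto
  have h1 : (deriv fun s : ℝ => f ((a * s) • w)) =ᶠ[𝓝 0]
      fun s => fderiv ℝ f ((a * s) • w) (a • w) := by
    filter_upwards [ht.eventually hd] with s hs
    exact (hs.hasFDerivAt.comp_hasDerivAt s (hline s)).deriv
  refine ⟨ContDiffAt.comp 0 (by simpa [h0] using hf) (by fun_prop), ?_, ?_⟩
  · rw [h1.self_of_nhds]
    simp only [h0, map_smul, smul_eq_mul]
  · have hdf : DifferentiableAt ℝ (fderiv ℝ f) 0 :=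
      (hf.fderiv_right (m := 1) (by norm_num)).differentiableAt one_ne_zero
    have h2 := (hdf.hasFDerivAt.comp_hasDerivAt_of_eq 0 (hline 0) h0.symm)
    have h3 : HasDerivAt (fun s : ℝ => fderiv ℝ f ((a * s) • w) (a • w))
        (fderiv ℝ (fderiv ℝ f) 0 (a • w) (a • w)) 0 :=
      (ContinuousLinearMap.apply ℝ ℝ (a • w)).hasFDerivAt.comp_hasDerivAt 0 h2
    rw [h1.deriv_eq, h3.deriv]
    simp only [map_smul, _root_.smul_apply, smul_eq_mul]
    ring

lemma sum_bas_eq (B : Vec n →L[ℝ] Vec n →L[ℝ] ℝ) (J : Vec n ≃ₗᵢ[ℝ] Vec n) :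
    ∑ k, B (J (bas k)) (J (bas k)) = ∑ k, B (bas k) (bas k) := by
  have hb : ∀ v : Vec n, ∀ i, inner ℝ (bas i) v = v i := fun v i => by
    simp [bas, EuclideanSpace.inner_single_left]
  have hexp : ∀ v : Vec n, v = ∑ i, v i • bas i := fun v => by
    ext j; simp [bas, Pi.single_apply]
  have hcol : ∀ i j, ∑ k, (J (bas k)) i * (J (bas k)) j = if i = j then 1 else 0 := by
    intro i j
    have h : ∀ k i, (J (bas k)) i = (J.symm (bas i)) k := fun k i => by
      rw [← hb (J (bas k)) i, ← hb (J.symm (bas i)) k, real_inner_comm (J (bas k)),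
        ← J.inner_map_map (bas k) (J.symm (bas i)), J.apply_symm_apply]
    simp only [h]
    have := J.symm.inner_map_map (bas i) (bas j)
    rw [PiLp.inner_apply] at this
    simp only [RCLike.inner_apply, conj_trivial] at this
    rw [hb, show (bas j : Vec n) i = if i = j then 1 else 0 by simp [bas]] at this
    rw [← this]
    exact Finset.sum_congr rfl fun k _ => mul_comm _ _
  calc ∑ k, B (J (bas k)) (J (bas k))
      = ∑ k, ∑ i, ∑ j, ((J (bas k)) i * (J (bas k)) j) * B (bas i) (bas j) := by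
        refine Finset.sum_congr rfl fun k _ => ?_
        conv_lhs => rw [hexp (J (bas k))]
        simp only [map_sum, map_smul, FunLike.coe_sum, Finset.sum_apply,
          _root_.smul_apply, smul_eq_mul, Finset.mul_sum]
        rw [Finset.sum_comm]
        exact Finset.sum_congr rfl fun i _ => Finset.sum_congr rfl fun j _ => by ring
    _ = ∑ i, ∑ j, (if i = j then 1 else 0) * B (bas i) (bas j) := by
        rw [Finset.sum_comm]
        refine Finset.sum_congr rfl fun i _ => ?_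
        rw [Finset.sum_comm]
        refine Finset.sum_congr rfl fun j _ => ?_
        rw [← Finset.sum_mul, hcol]
    _ = _ := by simp

lemma IsHarmonic.sum_frame {u : X → ℝ} (hu : IsHarmonic e u) (x : X) (J : Vec n ≃ₗᵢ[ℝ] Vec n) :
    ∑ k, fderiv ℝ (fderiv ℝ (u ∘ e x)) 0 (J (bas k)) (J (bas k)) = 0 :=
  (sum_bas_eq _ J).trans (hu.2 x).2

lemma hasDerivAt_prof {m t : ℝ} (hm : 0 ≤ m) (ht : 0 ≤ t) :
    HasDerivAt (prof m) (2 - (1 / (1 + m * t)) ^ 2) t := by
  have h : 1 + m * t ≠ 0 := by positivity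
  have h' : HasDerivAt (fun s => s * (1 + 2 * m * s) / (1 + m * s)) _ t :=
    ((hasDerivAt_id t).fun_mul (((hasDerivAt_id t).const_mul (2 * m)).const_add 1)).fun_div
      (((hasDerivAt_id t).const_mul m).const_add 1) h
  refine h'.congr_deriv ?_
  simp only [id]
  field_simp
  ring

lemma hasDerivAt_cost {m t : ℝ} (hm : 0 ≤ m) (ht : 0 < t) :
    HasDerivAt (cost n m) (n * (1 - 1 / (1 + m * t)) ^ 2 / prof m t) t := by
  have h1 : 1 + m * t ≠ 0 := by positivity
  have h2 : 1 + 2 * m * t ≠ 0 := by positivity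
  have h' : HasDerivAt (fun s => (n : ℝ) * (Real.log (1 + m * s) - Real.log (1 + 2 * m * s) / 2))
      _ t :=
    (((((hasDerivAt_id t).const_mul m).const_add 1).log h1).fun_sub
      (((((hasDerivAt_id t).const_mul (2 * m)).const_add 1).log h2).div_const 2)).const_mul (n : ℝ)
  refine h'.congr_deriv ?_
  simp only [prof, id]
  field_simp
  ring

lemma prof_pos {m t : ℝ} (hm : 0 ≤ m) (ht : 0 < t) : 0 < prof m t := by
  unfold prof; positivity

lemma prof_le {m t : ℝ} (hm : 0 ≤ m) (ht : 0 ≤ t) : prof m t ≤ 2 * t := by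
  unfold prof
  rw [div_le_iff₀ (by positivity)]
  nlinarith [mul_nonneg hm (mul_nonneg ht ht)]

lemma cost_nonneg {m t : ℝ} (hm : 0 ≤ m) (ht : 0 ≤ t) : 0 ≤ cost n m t := by
  refine mul_nonneg (Nat.cast_nonneg n) ?_
  have h1 : (0 : ℝ) < 1 + 2 * m * t := by positivity
  have h2 : Real.log (1 + 2 * m * t) ≤ Real.log ((1 + m * t) ^ 2) :=
    Real.log_le_log h1 (by nlinarith [sq_nonneg (m * t)])
  rw [Real.log_pow] at h2
  push_cast at h2
  linarith

/-- The subsolution property at a maximum point in `x`. -/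
theorem NonnegRicci.low_variation (hR : NonnegRicci n X e) {u : X → ℝ} (hu : IsHarmonic e u)
    {m t : ℝ} (hm : 0 ≤ m) (ht : 0 < t) (x z : X)
    (hmax : ∀ x', low n m u t x' z ≤ low n m u t x z) :
    ∃ f : Fin n → ℝ → ℝ, deriv (fun r => low n m u r x z) t ≤ ∑ k, deriv (deriv (f k)) 0 ∧
      ∀ k, ContDiffAt ℝ 2 (f k) 0 ∧ f k 0 = low n m u t x z ∧
        ∀ᶠ s : ℝ in 𝓝 0, ∃ x', f k s ≤ low n m u t x' (e z (s • bas k)) := by
  obtain ⟨J, p, hp, hsv⟩ := hR.secondVariation x z
  set α := 1 / (1 + m * t) with hα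
  obtain ⟨φ, hφ2, hφ⟩ := hsv α 1
  obtain ⟨ψ, -, hψ⟩ := hsv 1 0
  set T := prof m t with hT
  have hT0 : 0 < T := prof_pos hm ht
  set β := 1 / (2 * T) with hβ
  have hβ0 : 0 < β := by positivity
  set c := cost n m t with hc
  set U := u ∘ e x with hU
  have hU0 : U 0 = u x := by simp [hU, hR.base]
  have hUd := (hu.2 x).1
  have hlow : ∀ x' z', low n m u t x' z' = u x' ^ 2 * Real.exp (-β * dist x' z' ^ 2 - c) := by
    intro x' z'
    rw [low, ← hT, ← hc]
    congr 2
    rw [hβ]; ring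
  set d2 := dist x z ^ 2 with hd2
  set E₀ := Real.exp (-β * d2 - c) with hE
  set w := fun k => J (bas k) with hw
  set f : Fin n → ℝ → ℝ := fun k s =>
    U ((α * s) • w k) ^ 2 * Real.exp (-β * φ k s - c) with hf
  refine ⟨f, ?_, fun k => ⟨?_, ?_, ?_⟩⟩
  swap
  · exact (((deriv2_comp_line (f := U) hUd α (w k)).1).pow 2).mul
      (Real.contDiff_exp.contDiffAt.comp 0 ((contDiffAt_const.mul (hφ k).1).sub contDiffAt_const))
  swap
  · simp only [hf, mul_zero, zero_smul, hU0, (hφ k).2.1, hlow, ← hd2]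
  swap
  · filter_upwards [(hφ k).2.2.2] with s hs
    refine ⟨e x ((α * s) • w k), ?_⟩
    rw [one_mul] at hs
    rw [hlow]
    refine mul_le_mul_of_nonneg_left (Real.exp_le_exp.2 ?_) (sq_nonneg _)
    have := mul_le_mul_of_nonneg_left hs hβ0.le
    linarith
  -- the time derivative
  have hlt : deriv (fun r => low n m u r x z) t
      = u x ^ 2 * E₀ * (2 * β ^ 2 * (2 - α ^ 2) * d2 - 2 * n * β * (1 - α) ^ 2) := by
    have h' : HasDerivAt (fun r => u x ^ 2 * Real.exp (-(d2 / (2 * prof m r)) - cost n m r)) _ t :=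
      (((((hasDerivAt_prof hm ht.le).const_mul 2).fun_inv (by positivity)).const_mul d2).fun_neg.fun_sub
        (hasDerivAt_cost (n := n) hm ht) |>.exp).const_mul (u x ^ 2)
    have h'' : deriv (fun r => low n m u r x z) t = _ :=
      (h'.congr_of_eventuallyEq (Eventually.of_forall fun r => by
        simp only [low, ← hd2, div_eq_mul_inv])).deriv
    rw [h'', ← hT, ← hc]
    have e1 : Real.exp (-(d2 * (2 * T)⁻¹) - c) = E₀ := by
      rw [hE, hβ]; congr 1; ring
    rw [e1, hβ, hα]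
    ring
  -- the second derivatives in space
  have hf2 : ∀ k, deriv (deriv (f k)) 0 = E₀ * (2 * α ^ 2 * fderiv ℝ U 0 (w k) ^ 2 +
      2 * α ^ 2 * u x * fderiv ℝ (fderiv ℝ U) 0 (w k) (w k) -
      4 * u x * α * fderiv ℝ U 0 (w k) * (β * ((α - 1) * p k)) +
      u x ^ 2 * (β ^ 2 * ((α - 1) * p k) ^ 2 - β * deriv (deriv (φ k)) 0)) := by
    intro k
    obtain ⟨hq, hq1, hq2⟩ := deriv2_comp_line (f := U) hUd α (w k)
    have hg : ContDiffAt ℝ 2 (fun s => -β * φ k s - c) 0 :=
      (contDiffAt_const.mul (hφ k).1).sub contDiffAt_const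
    rw [hf]
    rw [second_deriv_exp_mul (hq.pow 2) hg]
    have hg1 : (deriv fun s => -β * φ k s - c) =ᶠ[𝓝 0] fun s => -β * deriv (φ k) s := by
      filter_upwards [((hφ k).1.eventually (by norm_num))] with s hs
      exact (((hs.differentiableAt two_ne_zero).hasDerivAt.const_mul (-β)).sub_const c).deriv
    have hdq := hq.differentiableAt two_ne_zero
    have hqd : (deriv fun s => U ((α * s) • w k) ^ 2) =ᶠ[𝓝 0]
        fun s => 2 * U ((α * s) • w k) * deriv (fun r => U ((α * r) • w k)) s := by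
      filter_upwards [hq.eventually (by norm_num)] with s hs
      rw [((hs.differentiableAt two_ne_zero).hasDerivAt.fun_pow 2).deriv]
      simp [hU]
    have hq3 : deriv (deriv fun s => U ((α * s) • w k) ^ 2) 0 = 2 * (α * fderiv ℝ U 0 (w k)) ^ 2
        + 2 * u x * (α ^ 2 * fderiv ℝ (fderiv ℝ U) 0 (w k) (w k)) := by
      rw [hqd.deriv_eq, ((hdq.hasDerivAt.const_mul 2).fun_mul
        (differentiableAt_deriv hq).hasDerivAt).deriv, hq1, hq2]
      simp only [mul_zero, zero_smul, hU0]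
      ring
    rw [hq3, hg1.self_of_nhds, hg1.deriv_eq, deriv_const_mul, hqd.self_of_nhds]
    · simp only [hq1, (hφ k).2.1, (hφ k).2.2.1, mul_zero, zero_smul, hU0, ← hd2, ← hE]
      ring
    · exact differentiableAt_deriv (hφ k).1
  -- stationarity in `x`
  have hstat : u x ≠ 0 → ∀ k, fderiv ℝ U 0 (w k) = β * u x * p k / 2 := by
    intro hux k
    obtain ⟨hq, hq1, -⟩ := deriv2_comp_line (f := U) hUd 1 (w k)
    set g : ℝ → ℝ := fun s => U ((1 * s) • w k) ^ 2 * Real.exp (-β * ψ k s - c) with hgd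
    have hg0 : g 0 = low n m u t x z := by
      simp only [hgd, mul_zero, zero_smul, hU0, (hψ k).2.1, hlow, ← hd2]
    have hgm : IsLocalMax g 0 := by
      filter_upwards [(hψ k).2.2.2] with s hs
      rw [hg0]
      refine le_trans ?_ (hmax (e x ((1 * s) • w k)))
      rw [hlow]
      refine mul_le_mul_of_nonneg_left (Real.exp_le_exp.2 ?_) (sq_nonneg _)
      rw [zero_mul, zero_smul, hR.base] at hs
      have := mul_le_mul_of_nonneg_left hs hβ0.le
      linarith
    have h1 := hgm.deriv_eq_zero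
    rw [hgd, ((((hq.differentiableAt two_ne_zero).hasDerivAt.fun_pow 2)).fun_mul
      ((((hψ k).1.differentiableAt two_ne_zero).hasDerivAt.const_mul (-β)).sub_const c).exp).deriv,
      hq1, (hψ k).2.2.1] at h1
    simp only [mul_zero, zero_smul, hU0, (hψ k).2.1, ← hd2, ← hE] at h1
    have h2 : u x * E₀ * (2 * fderiv ℝ U 0 (w k) - β * u x * p k) = 0 := by
      norm_num at h1; linear_combination h1
    rcases mul_eq_zero.1 h2 with h | h
    · exact absurd h (mul_ne_zero hux (Real.exp_pos _).ne')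
    · linarith
  rw [hlt, Finset.sum_congr rfl fun k _ => hf2 k, ← Finset.mul_sum]
  rcases eq_or_ne (u x) 0 with h0 | h0
  · rw [h0]
    simp only [ne_eq, OfNat.ofNat_ne_zero, not_false_eq_true, zero_pow, zero_mul, mul_zero,
      add_zero, sub_zero]
    exact mul_nonneg (Real.exp_pos _).le
      (Finset.sum_nonneg fun k _ => mul_nonneg (by positivity) (sq_nonneg _))
  have hH : ∑ k, fderiv ℝ (fderiv ℝ U) 0 (w k) (w k) = 0 := hu.sum_frame x J
  have hk : ∀ k, 2 * α ^ 2 * fderiv ℝ U 0 (w k) ^ 2 +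
      2 * α ^ 2 * u x * fderiv ℝ (fderiv ℝ U) 0 (w k) (w k) -
      4 * u x * α * fderiv ℝ U 0 (w k) * (β * ((α - 1) * p k)) +
      u x ^ 2 * (β ^ 2 * ((α - 1) * p k) ^ 2 - β * deriv (deriv (φ k)) 0)
      = u x ^ 2 * β ^ 2 * (1 - α ^ 2 / 2) * p k ^ 2 +
        2 * α ^ 2 * u x * fderiv ℝ (fderiv ℝ U) 0 (w k) (w k) -
        u x ^ 2 * β * deriv (deriv (φ k)) 0 := by
    intro k; rw [hstat h0 k]; ring
  rw [Finset.sum_congr rfl fun k _ => hk k, Finset.sum_sub_distrib, Finset.sum_add_distrib,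
    ← Finset.mul_sum, ← Finset.mul_sum, ← Finset.mul_sum, hp, hH]
  have := mul_le_mul_of_nonneg_left hφ2
    (mul_nonneg (mul_nonneg (sq_nonneg (u x)) hβ0.le) (Real.exp_pos (-β * d2 - c)).le)
  rw [← hE] at this
  linarith

lemma hasDerivAt_bar {l t r : ℝ} (hl : 4 * l * t < 1) :
    HasDerivAt (fun s => bar n l s r) (bar n l t r *
      (4 * (l / (1 - 4 * l * t)) ^ 2 * r + 2 * n * (l / (1 - 4 * l * t)))) t := by
  have h0 : 1 - 4 * l * t ≠ 0 := by linarith
  have hden : HasDerivAt (fun s => 1 - 4 * l * s) (-(4 * l)) t := by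
    simpa using ((hasDerivAt_id t).const_mul (4 * l)).const_sub 1
  have h := ((((hden.fun_inv h0).const_mul l).mul_const r).fun_sub
    ((hden.log h0).const_mul ((n : ℝ) / 2))).exp
  refine (h.congr_of_eventuallyEq (Eventually.of_forall fun s => ?_)).congr_deriv ?_
  · simp [bar, div_eq_mul_inv]
  · simp only [bar, div_eq_mul_inv]
    field_simp
    ring

/-- The supersolution property of the barriers. -/
theorem NonnegRicci.bar_variation (hR : NonnegRicci n X e) (z : X) {t : ℝ} :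
    ∃ J : Fin n → ℝ → ℝ, ∀ l : ℝ, 0 ≤ l → 4 * l * t < 1 →
      (∀ k, ContDiffAt ℝ 2 (fun s => bar n l t (J k s)) 0 ∧
        bar n l t (J k 0) = bar n l t (dist o z ^ 2) ∧
        ∀ᶠ s : ℝ in 𝓝 0, bar n l t (dist o (e z (s • bas k)) ^ 2) ≤ bar n l t (J k s)) ∧
      ∑ k, deriv (deriv fun s => bar n l t (J k s)) 0 ≤
        deriv (fun r => bar n l r (dist o z ^ 2)) t := by
  obtain ⟨J, p, hp, hsv⟩ := hR.secondVariation o z
  obtain ⟨φ, hφ2, hφ⟩ := hsv 0 1
  refine ⟨φ, fun l hl0 hl => ?_⟩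
  set B := l / (1 - 4 * l * t) with hB
  have hB0 : 0 ≤ B := div_nonneg hl0 (by linarith)
  set A := (n : ℝ) / 2 * Real.log (1 - 4 * l * t) with hA
  have hbar : ∀ r, bar n l t r = 1 * Real.exp (B * r - A) := fun r => by rw [one_mul]; rfl
  have hg : ∀ k, ContDiffAt ℝ 2 (fun s => B * φ k s - A) 0 := fun k =>
    (contDiffAt_const.mul (hφ k).1).sub contDiffAt_const
  refine ⟨fun k => ⟨?_, by rw [(hφ k).2.1], ?_⟩, ?_⟩
  · simp only [hbar, one_mul]
    exact (hg k).exp
  · filter_upwards [(hφ k).2.2.2] with s hs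
    rw [zero_mul, zero_smul, hR.base, one_mul] at hs
    rw [hbar, hbar, one_mul, one_mul]
    exact Real.exp_le_exp.2 (by linarith [mul_le_mul_of_nonneg_left hs hB0])
  · rw [(hasDerivAt_bar hl).deriv]
    have h2 : ∀ k, deriv (deriv fun s => bar n l t (φ k s)) 0 = bar n l t (dist o z ^ 2) *
        (B ^ 2 * p k ^ 2 + B * deriv (deriv (φ k)) 0) := by
      intro k
      simp only [hbar]
      rw [second_deriv_exp_mul (f := fun _ => (1 : ℝ)) contDiffAt_const (hg k)]
      have hg1 : (deriv fun s => B * φ k s - A) =ᶠ[𝓝 0] fun s => B * deriv (φ k) s := by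
        filter_upwards [((hφ k).1.eventually (by norm_num))] with s hs
        exact (((hs.differentiableAt two_ne_zero).hasDerivAt.const_mul B).sub_const A).deriv
      rw [hg1.self_of_nhds, hg1.deriv_eq, deriv_const_mul]
      · simp [(hφ k).2.1, (hφ k).2.2.1]
        ring
      · exact differentiableAt_deriv (hφ k).1
    rw [Finset.sum_congr rfl fun k _ => h2 k, ← Finset.mul_sum, Finset.sum_add_distrib,
      ← Finset.mul_sum, ← Finset.mul_sum, hp, ← hB]
    refine mul_le_mul_of_nonneg_left ?_ (Real.exp_pos _).le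
    linarith [mul_le_mul_of_nonneg_left hφ2 hB0]

end Vale.Agent.P225.Yau
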